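import Mathlib

/-!
Helper lemmas for P229: smoothness of parametric integrals, and functions on open subsets of
`ℂ × ℝ` which are smooth and holomorphic in the first variable.
-/

open Set Metric Filter MeasureTheory Complex
open scoped Topology ContDiff Interval

namespace P229

/-- A parametric integral of a `C^k` integrand over a compact interval is `C^k`. -/
theorem contDiffOn_param_integral :
    ∀ (k : ℕ) {E : Type} [NormedAddCommGroup E] [NormedSpace ℝ E] [CompleteSpace E]
      {P : Type} [NormedAddCommGroup P] [NormedSpace ℝ P] [ProperSpace P]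
      {f : P × ℝ → E} {U : Set (P × ℝ)} {O : Set P} {a b : ℝ},
      IsOpen U → ContDiffOn ℝ k f U → IsOpen O →
      (∀ p ∈ O, ∀ t ∈ uIcc a b, (p, t) ∈ U) →
      ContDiffOn ℝ k (fun p => ∫ t in a..b, f (p, t)) O := by
  intro k
  induction k with
  | zero =>
    intro E _ _ _ P _ _ _ f U O a b hU hf hO hOU
    rw [Nat.cast_zero, contDiffOn_zero] at hf ⊢
    intro p hp
    obtain ⟨δ, hδ, hball⟩ := Metric.isOpen_iff.1 hO p hp
    have hK : IsCompact (closedBall p (δ / 2) ×ˢ uIcc a b) :=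
      (isCompact_closedBall _ _).prod isCompact_uIcc
    have hsub : closedBall p (δ / 2) ×ˢ uIcc a b ⊆ U := by
      rintro ⟨q, t⟩ ⟨hq, ht⟩
      exact hOU q (hball (closedBall_subset_ball (by linarith) hq)) t ht
    obtain ⟨C, hC⟩ := hK.exists_bound_of_continuousOn (hf.mono hsub)
    have hnhds : ∀ᶠ q in 𝓝 p, q ∈ closedBall p (δ / 2) :=
      closedBall_mem_nhds _ (by linarith)
    refine (intervalIntegral.continuousAt_of_dominated_interval
      (bound := fun _ => C) ?_ ?_ intervalIntegrable_const ?_).continuousWithinAt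
    · filter_upwards [hnhds] with q hq
      refine ContinuousOn.aestronglyMeasurable ?_ measurableSet_uIoc
      exact hf.comp (continuousOn_const.prodMk continuousOn_id)
        (fun t ht => hsub ⟨hq, uIoc_subset_uIcc ht⟩)
    · filter_upwards [hnhds] with q hq
      exact Eventually.of_forall fun t ht => hC _ ⟨hq, uIoc_subset_uIcc ht⟩
    · refine Eventually.of_forall fun t ht => ?_
      have h1 : ContinuousAt f (p, t) :=
        hf.continuousAt (hU.mem_nhds (hOU p hp t (uIoc_subset_uIcc ht)))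
      exact ContinuousAt.comp (g := f) (f := fun q : P => (q, t)) h1
        (continuousAt_id.prodMk continuousAt_const)
  | succ k ih =>
    intro E _ _ _ P _ _ _ f U O a b hU hf hO hOU
    rw [show ((k + 1 : ℕ) : ℕ∞ω) = (k : ℕ∞ω) + 1 from rfl,
      contDiffOn_succ_iff_fderiv_of_isOpen hU] at hf
    obtain ⟨hfd, -, hf'⟩ := hf
    let F' : P × ℝ → (P →L[ℝ] E) := fun q =>
      (fderiv ℝ f q).comp (ContinuousLinearMap.inl ℝ P ℝ)
    have hF' : ContDiffOn ℝ k F' U := hf'.clm_comp contDiffOn_const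
    have key : ∀ p ∈ O, HasFDerivAt (fun p => ∫ t in a..b, f (p, t))
        (∫ t in a..b, F' (p, t)) p := by
      intro p hp
      obtain ⟨δ, hδ, hball⟩ := Metric.isOpen_iff.1 hO p hp
      have hK : IsCompact (closedBall p (δ / 2) ×ˢ uIcc a b) :=
        (isCompact_closedBall _ _).prod isCompact_uIcc
      have hsub : closedBall p (δ / 2) ×ˢ uIcc a b ⊆ U := by
        rintro ⟨q, t⟩ ⟨hq, ht⟩
        exact hOU q (hball (closedBall_subset_ball (by linarith) hq)) t ht
      obtain ⟨C, hC⟩ := hK.exists_bound_of_continuousOn (hF'.continuousOn.mono hsub)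
      refine intervalIntegral.hasFDerivAt_integral_of_dominated_of_fderiv_le
        (s := closedBall p (δ / 2)) (F' := fun q t => F' (q, t)) (bound := fun _ => C)
        (closedBall_mem_nhds _ (by linarith)) ?_ ?_ ?_ ?_ intervalIntegrable_const ?_
      · filter_upwards [closedBall_mem_nhds p (by linarith : (0 : ℝ) < δ / 2)] with q hq
        refine ContinuousOn.aestronglyMeasurable ?_ measurableSet_uIoc
        exact hfd.continuousOn.comp (continuousOn_const.prodMk continuousOn_id)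
          (fun t ht => hsub ⟨hq, uIoc_subset_uIcc ht⟩)
      · exact (hfd.continuousOn.comp (continuousOn_const.prodMk continuousOn_id)
          (fun t ht => hsub ⟨mem_closedBall_self (by linarith), ht⟩)).intervalIntegrable
      · refine ContinuousOn.aestronglyMeasurable ?_ measurableSet_uIoc
        exact hF'.continuousOn.comp (continuousOn_const.prodMk continuousOn_id)
          (fun t ht => hsub ⟨mem_closedBall_self (by linarith), uIoc_subset_uIcc ht⟩)
      · exact Eventually.of_forall fun t ht q hq => hC _ ⟨hq, uIoc_subset_uIcc ht⟩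
      · refine Eventually.of_forall fun t ht q hq => ?_
        have h1 : HasFDerivAt f (fderiv ℝ f (q, t)) (q, t) :=
          (hfd.differentiableAt (hU.mem_nhds (hsub ⟨hq, uIoc_subset_uIcc ht⟩))).hasFDerivAt
        exact h1.comp q (hasFDerivAt_prodMk_left q t)
    rw [show ((k + 1 : ℕ) : ℕ∞ω) = (k : ℕ∞ω) + 1 from rfl,
      contDiffOn_succ_iff_fderiv_of_isOpen hO]
    refine ⟨fun p hp => (key p hp).differentiableAt.differentiableWithinAt,
      fun h => absurd h (by simp), ?_⟩
    exact (ih hU hF' hO hOU).congr fun p hp => (key p hp).fderiv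

variable {E : Type} [NormedAddCommGroup E] [NormedSpace ℂ E]

/-- The slice `z ↦ f (z, y)` is complex differentiable at every point of `U`. -/
def HolSlices (f : ℂ × ℝ → E) (U : Set (ℂ × ℝ)) : Prop :=
  ∀ q ∈ U, DifferentiableAt ℂ (fun w => f (w, q.2)) q.1

/-- The derivative in the complex variable. -/
noncomputable def dz (f : ℂ × ℝ → E) (q : ℂ × ℝ) : E := deriv (fun w => f (w, q.2)) q.1

/-- The derivative in the real variable. -/
noncomputable def dy (f : ℂ × ℝ → E) (q : ℂ × ℝ) : E := fderiv ℝ f q (0, 1)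

theorem hasDerivAt_dz {f : ℂ × ℝ → E} {U : Set (ℂ × ℝ)} (h : HolSlices f U) {q : ℂ × ℝ}
    (hq : q ∈ U) : HasDerivAt (fun w => f (w, q.2)) (dz f q) q.1 :=
  (h q hq).hasDerivAt

theorem hasDerivAt_dy {f : ℂ × ℝ → E} {q : ℂ × ℝ} (h : DifferentiableAt ℝ f q) :
    HasDerivAt (fun t => f (q.1, t)) (dy f q) q.2 := by
  have h2 : HasDerivAt (fun t : ℝ => ((q.1, t) : ℂ × ℝ)) (0, 1) q.2 :=
    (hasDerivAt_const q.2 q.1).prodMk (hasDerivAt_id q.2)
  exact h.hasFDerivAt.comp_hasDerivAt q.2 h2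

theorem norm_dz_le [CompleteSpace E] {f : ℂ × ℝ → E} {U : Set (ℂ × ℝ)} (h : HolSlices f U)
    {q : ℂ × ℝ} {δ M : ℝ} (hδ : 0 < δ)
    (hball : ∀ w ∈ closedBall q.1 δ, (w, q.2) ∈ U)
    (hM : ∀ w ∈ closedBall q.1 δ, ‖f (w, q.2)‖ ≤ M) :
    ‖dz f q‖ ≤ M / δ := by
  have hd : DiffContOnCl ℂ (fun w => f (w, q.2)) (ball q.1 δ) := by
    refine DifferentiableOn.diffContOnCl ?_
    intro w hw
    rw [closure_ball _ hδ.ne'] at hw
    exact (h (w, q.2) (hball w hw)).differentiableWithinAt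
  exact Complex.norm_deriv_le_of_forall_mem_sphere_norm_le hδ hd
    fun w hw => hM w (sphere_subset_closedBall hw)

/-- The derivative in the complex variable of a `C^k` function with holomorphic slices is `C^k`. -/
theorem contDiffOn_dz [CompleteSpace E] {f : ℂ × ℝ → E} {U : Set (ℂ × ℝ)} (hU : IsOpen U)
    (h : HolSlices f U) (k : ℕ) (hf : ContDiffOn ℝ k f U) :
    ContDiffOn ℝ k (dz f) U := by
  intro q hq
  obtain ⟨δ, hδ, hball⟩ := Metric.isOpen_iff.1 hU q hq
  set r := δ / 4 with hr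
  have hr0 : 0 < r := by positivity
  have hmem : ∀ p ∈ ball q r, ∀ w ∈ closedBall p.1 (2 * r), ((w, p.2) : ℂ × ℝ) ∈ U := by
    intro p hp w hw
    apply hball
    rw [mem_ball, Prod.dist_eq, max_lt_iff] at hp
    rw [mem_closedBall] at hw
    rw [mem_ball, Prod.dist_eq, max_lt_iff]
    have := dist_triangle w p.1 q.1
    exact ⟨by linarith, by linarith⟩
  let g : (ℂ × ℝ) × ℝ → E := fun x =>
    deriv (circleMap 0 r) x.2 • ((circleMap 0 r x.2 ^ 2)⁻¹ • f (x.1.1 + circleMap 0 r x.2, x.1.2))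
  have hcirc : ContDiff ℝ k (circleMap (0 : ℂ) r) := contDiff_circleMap 0 r
  let V : Set ((ℂ × ℝ) × ℝ) := (fun x => (x.1.1 + circleMap 0 r x.2, x.1.2)) ⁻¹' U
  have hg0 : ContDiff ℝ k (fun x : (ℂ × ℝ) × ℝ =>
      ((x.1.1 + circleMap 0 r x.2, x.1.2) : ℂ × ℝ)) :=
    ((contDiff_fst.comp contDiff_fst).add (hcirc.comp contDiff_snd)).prodMk
      (contDiff_snd.comp contDiff_fst)
  have hV : IsOpen V := hU.preimage hg0.continuous
  have hg : ContDiffOn ℝ k g V := by
    have e1 : deriv (circleMap (0 : ℂ) r) = fun θ => circleMap 0 r θ * I := by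
      funext θ; simp [deriv_circleMap]
    have h1 : ContDiff ℝ k (fun x : (ℂ × ℝ) × ℝ => deriv (circleMap 0 r) x.2) := by
      rw [e1]; exact (hcirc.comp contDiff_snd).mul contDiff_const
    have h2 : ContDiff ℝ k (fun x : (ℂ × ℝ) × ℝ => (circleMap 0 r x.2 ^ 2)⁻¹) :=
      ((hcirc.comp contDiff_snd).pow 2).inv
        (fun x => pow_ne_zero _ (circleMap_ne_center hr0.ne'))
    exact h1.contDiffOn.smul (h2.contDiffOn.smul (hf.comp hg0.contDiffOn (mapsTo_preimage _ _)))
  have hint : ContDiffOn ℝ k (fun p => ∫ θ in (0:ℝ)..(2 * Real.pi), g (p, θ)) (ball q r) := by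
    refine contDiffOn_param_integral k hV hg isOpen_ball ?_
    intro p hp θ _
    apply hmem p hp
    rw [mem_closedBall, dist_eq_norm]
    simp only [add_sub_cancel_left, norm_circleMap_zero, abs_of_pos hr0]
    linarith
  have heq : ∀ p ∈ ball q r, dz f p =
      (2 * Real.pi * I : ℂ)⁻¹ • ∫ θ in (0:ℝ)..(2 * Real.pi), g (p, θ) := by
    intro p hp
    have hd : DifferentiableOn ℂ (fun w => f (w, p.2)) (ball p.1 (2 * r)) := fun w hw =>
      (h (w, p.2) (hmem p hp w (ball_subset_closedBall hw))).differentiableWithinAt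
    have := Complex.cderiv_eq_deriv isOpen_ball hd hr0
      (closedBall_subset_ball (by linarith))
    rw [dz, ← this]
    simp only [Complex.cderiv, circleIntegral]
    congr 1
    refine intervalIntegral.integral_congr fun θ _ => ?_
    simp [g, circleMap, deriv_circleMap]
  exact ((hint.const_smul _).congr heq).contDiffAt (isOpen_ball.mem_nhds (mem_ball_self hr0))
    |>.contDiffWithinAt

theorem contDiffOn_dz_infty [CompleteSpace E] {f : ℂ × ℝ → E} {U : Set (ℂ × ℝ)} (hU : IsOpen U)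
    (h : HolSlices f U) (hf : ContDiffOn ℝ ∞ f U) : ContDiffOn ℝ ∞ (dz f) U :=
  contDiffOn_infty.2 fun k => contDiffOn_dz hU h k (contDiffOn_infty.1 hf k)

theorem holSlices_dz [CompleteSpace E] {f : ℂ × ℝ → E} {U : Set (ℂ × ℝ)} (hU : IsOpen U)
    (h : HolSlices f U) : HolSlices (dz f) U := by
  intro q hq
  let V : Set ℂ := (fun w => (w, q.2)) ⁻¹' U
  have hV : IsOpen V := hU.preimage (by fun_prop)
  have hd : DifferentiableOn ℂ (fun w => f (w, q.2)) V :=
    fun w hw => (h (w, q.2) hw).differentiableWithinAt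
  exact (hd.deriv hV).differentiableAt (hV.mem_nhds hq)

theorem contDiffOn_dy_infty {f : ℂ × ℝ → E} {U : Set (ℂ × ℝ)} (hU : IsOpen U)
    (hf : ContDiffOn ℝ ∞ f U) : ContDiffOn ℝ ∞ (dy f) U :=
  (hf.fderiv_of_isOpen hU (by simp)).clm_apply contDiffOn_const

theorem fderiv_eq_dz {f : ℂ × ℝ → E} {U : Set (ℂ × ℝ)} (h : HolSlices f U) {q : ℂ × ℝ}
    (hq : q ∈ U) (hd : DifferentiableAt ℝ f q) (v : ℂ) :
    fderiv ℝ f q (v, 0) = v • dz f q := by
  have h1 : HasFDerivAt (fun w => f (w, q.2))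
      ((fderiv ℝ f q).comp (ContinuousLinearMap.inl ℝ ℂ ℝ)) q.1 :=
    hd.hasFDerivAt.comp q.1 (hasFDerivAt_prodMk_left q.1 q.2)
  have h2 : HasFDerivAt (fun w => f (w, q.2))
      ((ContinuousLinearMap.smulRight (1 : ℂ →L[ℂ] ℂ) (dz f q)).restrictScalars ℝ) q.1 :=
    (hasDerivAt_dz h hq).hasFDerivAt.restrictScalars ℝ
  have := congrArg (fun L : ℂ →L[ℝ] E => L v) (h1.unique h2)
  simpa using this

/-- The derivative in the real variable still has holomorphic slices. -/
theorem holSlices_dy {f : ℂ × ℝ → E} {U : Set (ℂ × ℝ)} (hU : IsOpen U)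
    (h : HolSlices f U) (hf : ContDiffOn ℝ ∞ f U) : HolSlices (dy f) U := by
  intro q hq
  have hf2 : ContDiffAt ℝ 2 f q :=
    (hf.contDiffAt (hU.mem_nhds hq)).of_le
      (WithTop.coe_le_coe.2 (le_top : (2 : ℕ∞) ≤ ⊤))
  have hdy : DifferentiableAt ℝ (fderiv ℝ f) q :=
    (hf2.fderiv_right (m := 1) (by norm_num)).differentiableAt (by norm_num)
  have hsym : ∀ v w, fderiv ℝ (fderiv ℝ f) q v w = fderiv ℝ (fderiv ℝ f) q w v :=
    hf2.isSymmSndFDerivAt (by simp)
  have h1 : HasFDerivAt (fun w => dy f (w, q.2))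
      (((ContinuousLinearMap.apply ℝ E ((0 : ℂ), (1 : ℝ))).comp (fderiv ℝ (fderiv ℝ f) q)).comp
        (ContinuousLinearMap.inl ℝ ℂ ℝ)) q.1 :=
    HasFDerivAt.comp (g := dy f) (f := fun w : ℂ => (w, q.2)) q.1
      (((ContinuousLinearMap.apply ℝ E ((0 : ℂ), (1 : ℝ))).hasFDerivAt.comp q
        hdy.hasFDerivAt)) (hasFDerivAt_prodMk_left q.1 q.2)
  rw [differentiableAt_complex_iff_differentiableAt_real]
  refine ⟨h1.differentiableAt, ?_⟩
  rw [h1.fderiv]
  simp only [ContinuousLinearMap.coe_comp, Function.comp_apply,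
    ContinuousLinearMap.inl_apply, ContinuousLinearMap.apply_apply]
  rw [hsym ((I, (0 : ℝ))), hsym (((1 : ℂ), (0 : ℝ)))]
  -- differentiate the Cauchy–Riemann equation in the real variable
  have e1 : ∀ v : ℂ × ℝ, fderiv ℝ (fun p => fderiv ℝ f p v) q ((0 : ℂ), (1 : ℝ))
      = fderiv ℝ (fderiv ℝ f) q ((0 : ℂ), (1 : ℝ)) v := by
    intro v
    have hh : HasFDerivAt (fun p => fderiv ℝ f p v)
        ((ContinuousLinearMap.apply ℝ E v).comp (fderiv ℝ (fderiv ℝ f) q)) q :=
      (ContinuousLinearMap.apply ℝ E v).hasFDerivAt.comp q hdy.hasFDerivAt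
    rw [hh.fderiv]
    rfl
  rw [← e1, ← e1]
  have hEq : (fun p => fderiv ℝ f p (I, 0)) =ᶠ[𝓝 q] fun p => I • fderiv ℝ f p (1, 0) := by
    filter_upwards [hU.mem_nhds hq] with p hp
    have hdp : DifferentiableAt ℝ f p :=
      (hf.contDiffAt (hU.mem_nhds hp)).differentiableAt (by simp)
    rw [fderiv_eq_dz h hp hdp, fderiv_eq_dz h hp hdp, one_smul]
  have hd1 : DifferentiableAt ℝ (fun p => fderiv ℝ f p ((1 : ℂ), (0 : ℝ))) q :=
    hdy.clm_apply (differentiableAt_const _)
  rw [hEq.fderiv_eq, fderiv_fun_const_smul hd1]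
  rfl

end P229
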