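import Mathlib
import Vale.Agent.P229.Hol

/-!
An elementary abstract Cauchy–Kovalevskaya theorem for the system
`∂_y V = Φ(z, y, V) + ∂_z [Ψ(z, y, V)]`, `V(z, 0) = 0`,
with data holomorphic in `(z, V)` and only smooth in `y`.
The scale of discs `‖z‖ < r - |y| / a` replaces the Banach scale.
-/

open Set Metric Filter MeasureTheory Complex
open scoped Topology ContDiff Interval

namespace P229

variable {E : Type} [NormedAddCommGroup E] [NormedSpace ℂ E]

/-- Distance to the boundary of the domain of dependence. -/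
noncomputable def gap (r a : ℝ) (q : ℂ × ℝ) : ℝ := r - ‖q.1‖ - |q.2| / a

/-- The domain of dependence. -/
def dom (r a : ℝ) : Set (ℂ × ℝ) := {q | 0 < gap r a q}

theorem continuous_gap (r a : ℝ) : Continuous (gap r a) := by
  unfold gap; fun_prop

theorem isOpen_dom (r a : ℝ) : IsOpen (dom r a) :=
  isOpen_lt continuous_const (continuous_gap r a)

theorem abs_le_of_mem_uIcc {s y : ℝ} (h : s ∈ uIcc 0 y) : |s| ≤ |y| := by
  rcases mem_uIcc.1 h with ⟨h1, h2⟩ | ⟨h1, h2⟩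
  · rw [abs_of_nonneg h1, abs_of_nonneg (h1.trans h2)]; exact h2
  · rw [abs_of_nonpos h2, abs_of_nonpos (h1.trans h2)]; linarith

theorem gap_mono {r a : ℝ} (ha : 0 < a) {z : ℂ} {s y : ℝ} (h : |s| ≤ |y|) :
    gap r a (z, y) ≤ gap r a (z, s) := by
  have : |s| / a ≤ |y| / a := div_le_div_of_nonneg_right h ha.le
  simp only [gap]
  linarith

theorem seg_mem_dom {r a : ℝ} (ha : 0 < a) {q : ℂ × ℝ} (hq : q ∈ dom r a) {s : ℝ}
    (hs : s ∈ uIcc 0 q.2) : (q.1, s) ∈ dom r a :=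
  hq.trans_le (gap_mono ha (abs_le_of_mem_uIcc hs))

theorem gap_le_of_dist {r a : ℝ} {z w : ℂ} {δ : ℝ} (h : w ∈ closedBall z δ) (s : ℝ) :
    gap r a (z, s) - δ ≤ gap r a (w, s) := by
  rw [mem_closedBall, dist_eq_norm] at h
  have := norm_sub_norm_le w z
  simp only [gap]
  linarith

/-- Integral bound through a bound depending on `|s|`. -/
theorem norm_integral_zero_le {F : Type} [NormedAddCommGroup F] [NormedSpace ℝ F]
    {f : ℝ → F} {g : ℝ → ℝ} {y : ℝ} (hg : ContinuousOn g (Icc 0 |y|))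
    (h : ∀ s ∈ uIcc 0 y, ‖f s‖ ≤ g |s|) :
    ‖∫ s in (0:ℝ)..y, f s‖ ≤ ∫ u in (0:ℝ)..|y|, g u := by
  have hgi : IntervalIntegrable g volume 0 |y| :=
    hg.intervalIntegrable_of_Icc (abs_nonneg y)
  rcases le_total 0 y with hy | hy
  · rw [abs_of_nonneg hy] at hgi ⊢
    refine intervalIntegral.norm_integral_le_of_norm_le hy ?_ hgi
    refine Eventually.of_forall fun s hs => ?_
    have := h s (by rw [uIcc_of_le hy]; exact ⟨hs.1.le, hs.2⟩)
    rwa [abs_of_pos hs.1] at this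
  · rw [abs_of_nonpos hy] at hgi ⊢
    have e : ∫ s in (0:ℝ)..y, f s = -∫ s in (0:ℝ)..(-y), f (-s) := by
      rw [intervalIntegral.integral_comp_neg f]
      simp [intervalIntegral.integral_symm y 0]
    rw [e, norm_neg]
    refine intervalIntegral.norm_integral_le_of_norm_le (by linarith) ?_ hgi
    refine Eventually.of_forall fun s hs => ?_
    have := h (-s) (by rw [uIcc_of_ge hy]; exact ⟨by linarith [hs.2], by linarith [hs.1]⟩)
    rwa [abs_neg, abs_of_pos hs.1] at this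

theorem integral_inv_sqrt_le {c a t : ℝ} (ha : 0 < a) (ht : 0 ≤ t) (h : 0 < c - t / a) :
    ∫ u in (0:ℝ)..t, 1 / Real.sqrt (c - u / a) ≤ 2 * a * Real.sqrt c := by
  have hpos : ∀ u ∈ uIcc 0 t, 0 < c - u / a := by
    intro u hu
    rw [uIcc_of_le ht] at hu
    have : u / a ≤ t / a := div_le_div_of_nonneg_right hu.2 ha.le
    linarith
  have hd : ∀ u ∈ uIcc 0 t,
      HasDerivAt (fun u => -2 * a * Real.sqrt (c - u / a)) (1 / Real.sqrt (c - u / a)) u := by
    intro u hu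
    have h1 := ((((hasDerivAt_id u).div_const a).const_sub c).sqrt (hpos u hu).ne').const_mul
      (-2 * a)
    refine h1.congr_deriv ?_
    have := Real.sqrt_pos.2 (hpos u hu)
    simp only [id_eq]
    field_simp
  have hc : ContinuousOn (fun u => 1 / Real.sqrt (c - u / a)) (uIcc 0 t) :=
    continuousOn_const.div (by fun_prop) fun u hu => (Real.sqrt_pos.2 (hpos u hu)).ne'
  rw [intervalIntegral.integral_eq_sub_of_hasDerivAt hd hc.intervalIntegrable]
  simp only [zero_div, sub_zero]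
  have : 0 ≤ 2 * a * Real.sqrt (c - t / a) := by positivity
  linarith

theorem integral_inv_mul_sqrt_le {c a t : ℝ} (ha : 0 < a) (ht : 0 ≤ t) (h : 0 < c - t / a) :
    ∫ u in (0:ℝ)..t, 1 / ((c - u / a) * Real.sqrt (c - u / a))
      ≤ 2 * a / Real.sqrt (c - t / a) := by
  have hpos : ∀ u ∈ uIcc 0 t, 0 < c - u / a := by
    intro u hu
    rw [uIcc_of_le ht] at hu
    have : u / a ≤ t / a := div_le_div_of_nonneg_right hu.2 ha.le
    linarith
  have hd : ∀ u ∈ uIcc 0 t, HasDerivAt (fun u => 2 * a / Real.sqrt (c - u / a))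
      (1 / ((c - u / a) * Real.sqrt (c - u / a))) u := by
    intro u hu
    have h1 := (hasDerivAt_const u (2 * a)).fun_div
      ((((hasDerivAt_id u).div_const a).const_sub c).sqrt (hpos u hu).ne')
      (Real.sqrt_pos.2 (hpos u hu)).ne'
    refine h1.congr_deriv ?_
    simp only [id_eq]
    rw [Real.sq_sqrt (hpos u hu).le]
    field_simp [(hpos u hu).ne', (Real.sqrt_pos.2 (hpos u hu)).ne']
    ring
  have hc : ContinuousOn (fun u => 1 / ((c - u / a) * Real.sqrt (c - u / a))) (uIcc 0 t) :=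
    continuousOn_const.div (by fun_prop) fun u hu =>
      mul_ne_zero (hpos u hu).ne' (Real.sqrt_pos.2 (hpos u hu)).ne'
  rw [intervalIntegral.integral_eq_sub_of_hasDerivAt hd hc.intervalIntegrable]
  simp only [zero_div, sub_zero]
  have : 0 ≤ 2 * a / Real.sqrt c := by positivity
  linarith

theorem norm_int_le_sqrt {F : Type} [NormedAddCommGroup F] [NormedSpace ℝ F] {r a K : ℝ}
    (ha : 0 < a) (hK : 0 ≤ K) (hr : r ≤ 1) {f : ℝ → F} {q : ℂ × ℝ} (hq : q ∈ dom r a)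
    (h : ∀ s ∈ uIcc 0 q.2, ‖f s‖ ≤ K / Real.sqrt (gap r a (q.1, s))) :
    ‖∫ s in (0:ℝ)..q.2, f s‖ ≤ 2 * a * K := by
  set c := r - ‖q.1‖ with hc
  have hpos : 0 < c - |q.2| / a := hq
  have hcont : ContinuousOn (fun u => K * (1 / Real.sqrt (c - u / a))) (Icc 0 |q.2|) := by
    refine continuousOn_const.mul (continuousOn_const.div (by fun_prop) fun u hu => ?_)
    have : u / a ≤ |q.2| / a := div_le_div_of_nonneg_right hu.2 ha.le
    exact (Real.sqrt_pos.2 (by linarith)).ne'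
  refine (norm_integral_zero_le hcont fun s hs => ?_).trans ?_
  · rw [mul_one_div]; exact h s hs
  · rw [intervalIntegral.integral_const_mul]
    have h1 := integral_inv_sqrt_le ha (abs_nonneg q.2) hpos
    have h2 : Real.sqrt c ≤ 1 := by
      rw [show (1:ℝ) = Real.sqrt 1 from Real.sqrt_one.symm]
      exact Real.sqrt_le_sqrt (by linarith [norm_nonneg q.1])
    calc K * _ ≤ K * (2 * a * Real.sqrt c) := by gcongr
      _ ≤ K * (2 * a * 1) := by gcongr
      _ = 2 * a * K := by ring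

theorem norm_int_le_mul_sqrt {F : Type} [NormedAddCommGroup F] [NormedSpace ℝ F] {r a K : ℝ}
    (ha : 0 < a) (hK : 0 ≤ K) {f : ℝ → F} {q : ℂ × ℝ} (hq : q ∈ dom r a)
    (h : ∀ s ∈ uIcc 0 q.2,
      ‖f s‖ ≤ K / (gap r a (q.1, s) * Real.sqrt (gap r a (q.1, s)))) :
    ‖∫ s in (0:ℝ)..q.2, f s‖ ≤ 2 * a * K / Real.sqrt (gap r a q) := by
  set c := r - ‖q.1‖ with hc
  have hpos : 0 < c - |q.2| / a := hq
  have hcont : ContinuousOn (fun u => K * (1 / ((c - u / a) * Real.sqrt (c - u / a))))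
      (Icc 0 |q.2|) := by
    refine continuousOn_const.mul (continuousOn_const.div (by fun_prop) fun u hu => ?_)
    have : u / a ≤ |q.2| / a := div_le_div_of_nonneg_right hu.2 ha.le
    exact mul_ne_zero (by linarith) (Real.sqrt_pos.2 (by linarith)).ne'
  refine (norm_integral_zero_le hcont fun s hs => ?_).trans ?_
  · rw [mul_one_div]; exact h s hs
  · rw [intervalIntegral.integral_const_mul]
    have h1 := integral_inv_mul_sqrt_le ha (abs_nonneg q.2) hpos
    calc K * _ ≤ K * (2 * a / Real.sqrt (c - |q.2| / a)) := by gcongr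
      _ = 2 * a * K / Real.sqrt (gap r a q) := by rw [gap, ← hc]; ring

/-- Substitution of `V` in `Φ`. -/
def sub3 (Φ : ℂ × ℝ × E → E) (V : ℂ × ℝ → E) (q : ℂ × ℝ) : E := Φ (q.1, q.2, V q)

/-- The right hand side of the equation. -/
noncomputable def rhs (Φ Ψ : ℂ × ℝ × E → E) (V : ℂ × ℝ → E) (q : ℂ × ℝ) : E :=
  sub3 Φ V q + dz (sub3 Ψ V) q

/-- The integral operator. -/
noncomputable def step (Φ Ψ : ℂ × ℝ × E → E) (V : ℂ × ℝ → E) (q : ℂ × ℝ) : E :=
  ∫ s in (0:ℝ)..q.2, rhs Φ Ψ V (q.1, s)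

/-- Joint holomorphy in `(z, V)` for each fixed `y`. -/
def HolData (Φ : ℂ × ℝ × E → E) (U : Set (ℂ × ℝ × E)) : Prop :=
  ∀ q ∈ U, DifferentiableAt ℂ (fun x : ℂ × E => Φ (x.1, q.2.1, x.2)) (q.1, q.2.2)

/-- Quantitative data on the box of size `δ`. -/
structure Box (Φ : ℂ × ℝ × E → E) (U : Set (ℂ × ℝ × E)) (δ M L : ℝ) : Prop where
  isOpen : IsOpen U
  smooth : ContDiffOn ℝ ∞ Φ U
  hol : HolData Φ U
  subset : closedBall 0 δ ⊆ U
  bound : ∀ q ∈ closedBall (0 : ℂ × ℝ × E) δ, ‖Φ q‖ ≤ M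
  lip : ∀ q ∈ closedBall (0 : ℂ × ℝ × E) δ, ‖fderiv ℝ Φ q‖ ≤ L

/-- The parameters of the domain of dependence. -/
structure Par (r a δ : ℝ) : Prop where
  rpos : 0 < r
  rle : r ≤ δ
  rle1 : r ≤ 1
  apos : 0 < a
  ale : a ≤ 1

/-- Admissible functions. -/
structure Adm (r a δ : ℝ) (V : ℂ × ℝ → E) : Prop where
  cont : ContinuousOn V (dom r a)
  hol : HolSlices V (dom r a)
  bound : ∀ q ∈ dom r a, ‖V q‖ ≤ δ

variable {Φ Ψ : ℂ × ℝ × E → E} {U : Set (ℂ × ℝ × E)} {δ M L r a : ℝ} {V W : ℂ × ℝ → E}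

theorem gap_le_one (hp : Par r a δ) (q : ℂ × ℝ) : gap r a q ≤ 1 := by
  have : 0 ≤ |q.2| / a := div_nonneg (abs_nonneg _) hp.apos.le
  simp only [gap]
  linarith [norm_nonneg q.1, hp.rle1]

theorem one_le_inv_sqrt (hp : Par r a δ) {q : ℂ × ℝ} (hq : q ∈ dom r a) :
    1 ≤ 1 / Real.sqrt (gap r a q) := by
  rw [le_one_div (by norm_num) (Real.sqrt_pos.2 hq), div_one]
  calc Real.sqrt (gap r a q) ≤ Real.sqrt 1 := Real.sqrt_le_sqrt (gap_le_one hp q)
    _ = 1 := Real.sqrt_one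

theorem Adm.mem_box (hp : Par r a δ) (hV : Adm r a δ V) {q : ℂ × ℝ} (hq : q ∈ dom r a) :
    ((q.1, q.2, V q) : ℂ × ℝ × E) ∈ closedBall 0 δ := by
  have h0 : 0 < r - ‖q.1‖ - |q.2| / a := hq
  have h1 : |q.2| ≤ |q.2| / a := by
    rw [le_div_iff₀ hp.apos]
    exact mul_le_of_le_one_right (abs_nonneg _) hp.ale
  rw [mem_closedBall, dist_zero_right]
  refine norm_prod_le_iff.2 ⟨?_, norm_prod_le_iff.2 ⟨?_, hV.bound q hq⟩⟩
  · linarith [abs_nonneg q.2, hp.rle]
  · rw [Real.norm_eq_abs]; linarith [norm_nonneg q.1, hp.rle]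

theorem Adm.sub3_cont (hB : Box Φ U δ M L) (hp : Par r a δ) (hV : Adm r a δ V) :
    ContinuousOn (sub3 Φ V) (dom r a) :=
  hB.smooth.continuousOn.comp
    (continuousOn_fst.prodMk (continuousOn_snd.prodMk hV.cont))
    fun _ hq => hB.subset (hV.mem_box hp hq)

theorem Adm.sub3_hol (hB : Box Φ U δ M L) (hp : Par r a δ) (hV : Adm r a δ V) :
    HolSlices (sub3 Φ V) (dom r a) := by
  intro q hq
  exact DifferentiableAt.comp (g := fun x : ℂ × E => Φ (x.1, q.2, x.2))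
    (f := fun w => (w, V (w, q.2))) q.1
    (hB.hol _ (hB.subset (hV.mem_box hp hq)))
    (differentiableAt_id.prodMk (hV.hol q hq))

theorem Adm.dz_sub3_le (hB : Box Φ U δ M L) (hp : Par r a δ) (hV : Adm r a δ V)
    {q : ℂ × ℝ} (hq : q ∈ dom r a) {b : ℝ} (h1 : 1 ≤ b) (hb : ‖dz V q‖ ≤ b) :
    ‖dz (sub3 Φ V) q‖ ≤ L * b := by
  have hmem := hV.mem_box hp hq
  have hd : HasFDerivAt Φ (fderiv ℝ Φ (q.1, q.2, V q)) (q.1, q.2, V q) :=
    ((hB.smooth.contDiffAt (hB.isOpen.mem_nhds (hB.subset hmem))).differentiableAt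
      (by simp)).hasFDerivAt
  have hv : HasFDerivAt (fun w : ℂ => V (w, q.2))
      ((ContinuousLinearMap.smulRight (1 : ℂ →L[ℂ] ℂ) (dz V q)).restrictScalars ℝ) q.1 :=
    (hasDerivAt_dz hV.hol hq).hasFDerivAt.restrictScalars ℝ
  have hc := HasFDerivAt.comp (g := Φ) (f := fun w : ℂ => ((w, q.2, V (w, q.2)) : ℂ × ℝ × E))
    q.1 hd ((hasFDerivAt_id q.1).prodMk ((hasFDerivAt_const q.2 q.1).prodMk hv))
  have he : HasFDerivAt (fun w : ℂ => sub3 Φ V (w, q.2))
      ((ContinuousLinearMap.smulRight (1 : ℂ →L[ℂ] ℂ) (dz (sub3 Φ V) q)).restrictScalars ℝ)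
      q.1 := (hasDerivAt_dz (hV.sub3_hol hB hp) hq).hasFDerivAt.restrictScalars ℝ
  have key := congrArg (fun T : ℂ →L[ℝ] E => T 1) (he.unique hc)
  simp only [ContinuousLinearMap.coe_restrictScalars', ContinuousLinearMap.smulRight_apply,
    one_apply_eq_self, one_smul, ContinuousLinearMap.coe_comp, Function.comp_apply,
    ContinuousLinearMap.prod_apply, ContinuousLinearMap.id_apply,
    zero_apply] at key
  rw [key]
  refine (ContinuousLinearMap.le_opNorm _ _).trans ?_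
  refine mul_le_mul (hB.lip _ hmem) ?_ (norm_nonneg _) ((norm_nonneg _).trans (hB.lip _ hmem))
  refine norm_prod_le_iff.2 ⟨by simpa using h1, norm_prod_le_iff.2 ⟨?_, hb⟩⟩
  simp; linarith

/-- Cauchy estimate on the disc of radius `gap / 2`. -/
theorem dz_le_of_sqrt [CompleteSpace E] {f : ℂ × ℝ → E} (hf : HolSlices f (dom r a)) {K : ℝ}
    (hK : 0 ≤ K) (hb : ∀ q ∈ dom r a, ‖f q‖ ≤ K / Real.sqrt (gap r a q)) {q : ℂ × ℝ}
    (hq : q ∈ dom r a) :
    ‖dz f q‖ ≤ 3 * K / (gap r a q * Real.sqrt (gap r a q)) := by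
  set g := gap r a q with hg
  have hg0 : 0 < g := hq
  have hge : ∀ w ∈ closedBall q.1 (g / 2), g / 2 ≤ gap r a (w, q.2) := by
    intro w hw
    have := gap_le_of_dist (r := r) (a := a) hw q.2
    simp only [Prod.mk.eta] at this
    linarith
  have hmem : ∀ w ∈ closedBall q.1 (g / 2), (w, q.2) ∈ dom r a := fun w hw =>
    (half_pos hg0).trans_le (hge w hw)
  have h := norm_dz_le hf (half_pos hg0) hmem (M := K / Real.sqrt (g / 2)) fun w hw =>
    (hb _ (hmem w hw)).trans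
      (div_le_div_of_nonneg_left hK (Real.sqrt_pos.2 (half_pos hg0))
        (Real.sqrt_le_sqrt (hge w hw)))
  refine h.trans ?_
  have h2 : 2 / 3 * Real.sqrt g ≤ Real.sqrt (g / 2) := by
    rw [show 2 / 3 * Real.sqrt g = Real.sqrt (4 / 9 * g) by
      rw [Real.sqrt_mul (by norm_num), show Real.sqrt (4 / 9) = 2 / 3 by
        rw [show (4:ℝ) / 9 = (2 / 3) ^ 2 by norm_num, Real.sqrt_sq (by norm_num)] ] ]
    exact Real.sqrt_le_sqrt (by linarith)
  have hs : 0 < Real.sqrt g := Real.sqrt_pos.2 hg0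
  calc K / Real.sqrt (g / 2) / (g / 2) ≤ K / (2 / 3 * Real.sqrt g) / (g / 2) := by
        gcongr
    _ = 3 * K / (g * Real.sqrt g) := by field_simp

theorem div_sqrt_le_div_mul_sqrt (hp : Par r a δ) {q : ℂ × ℝ} (hq : q ∈ dom r a) {K : ℝ}
    (hK : 0 ≤ K) :
    K / Real.sqrt (gap r a q) ≤ K / (gap r a q * Real.sqrt (gap r a q)) := by
  refine div_le_div_of_nonneg_left hK (mul_pos hq (Real.sqrt_pos.2 hq)) ?_
  exact mul_le_of_le_one_left (Real.sqrt_nonneg _) (gap_le_one hp q)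

variable [CompleteSpace E]

theorem continuousOn_dz {f : ℂ × ℝ → E} {O : Set (ℂ × ℝ)} (hO : IsOpen O) (h : HolSlices f O)
    (hf : ContinuousOn f O) : ContinuousOn (dz f) O :=
  contDiffOn_zero.1 (contDiffOn_dz hO h 0 (contDiffOn_zero.2 hf))

theorem Adm.rhs_cont (hΦ : Box Φ U δ M L) (hΨ : Box Ψ U δ M L) (hp : Par r a δ)
    (hV : Adm r a δ V) : ContinuousOn (rhs Φ Ψ V) (dom r a) :=
  (hV.sub3_cont hΦ hp).add
    (continuousOn_dz (isOpen_dom r a) (hV.sub3_hol hΨ hp) (hV.sub3_cont hΨ hp))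

theorem Adm.rhs_hol (hΦ : Box Φ U δ M L) (hΨ : Box Ψ U δ M L) (hp : Par r a δ)
    (hV : Adm r a δ V) : HolSlices (rhs Φ Ψ V) (dom r a) := fun q hq =>
  (hV.sub3_hol hΦ hp q hq).add (holSlices_dz (isOpen_dom r a) (hV.sub3_hol hΨ hp) q hq)

theorem hasDerivAt_step_z {f : ℂ × ℝ → E} (ha : 0 < a) (hfc : ContinuousOn f (dom r a))
    (hfh : HolSlices f (dom r a)) {q : ℂ × ℝ} (hq : q ∈ dom r a) :
    HasDerivAt (fun w => ∫ s in (0:ℝ)..q.2, f (w, s))
      (∫ s in (0:ℝ)..q.2, dz f (q.1, s)) q.1 := by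
  have hg0 : 0 < gap r a q := hq
  set η := gap r a q / 2
  have hsub : closedBall q.1 η ×ˢ uIcc 0 q.2 ⊆ dom r a := by
    rintro ⟨w, s⟩ ⟨hw, hs⟩
    have h1 := gap_le_of_dist (r := r) (a := a) hw s
    have h2 := gap_mono (r := r) ha (z := q.1) (abs_le_of_mem_uIcc hs)
    simp only [Prod.mk.eta] at h2
    show 0 < gap r a (w, s)
    dsimp only at h1
    have : η = gap r a q / 2 := rfl
    linarith
  have hd : ContinuousOn (dz f) (dom r a) := continuousOn_dz (isOpen_dom r a) hfh hfc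
  obtain ⟨C, hC⟩ := ((isCompact_closedBall q.1 η).prod
    isCompact_uIcc).exists_bound_of_continuousOn (hd.mono hsub)
  have hη : 0 < η := half_pos hg0
  refine (intervalIntegral.hasDerivAt_integral_of_dominated_loc_of_deriv_le
    (F' := fun w s => dz f (w, s)) (bound := fun _ => C)
    (closedBall_mem_nhds _ hη) ?_ ?_ ?_ ?_ intervalIntegrable_const ?_).2
  · filter_upwards [closedBall_mem_nhds q.1 hη] with w hw
    refine ContinuousOn.aestronglyMeasurable ?_ measurableSet_uIoc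
    exact hfc.comp (continuousOn_const.prodMk continuousOn_id)
      fun s hs => hsub ⟨hw, uIoc_subset_uIcc hs⟩
  · exact (hfc.comp (continuousOn_const.prodMk continuousOn_id)
      fun s hs => hsub ⟨mem_closedBall_self hη.le, hs⟩).intervalIntegrable
  · refine ContinuousOn.aestronglyMeasurable ?_ measurableSet_uIoc
    exact hd.comp (continuousOn_const.prodMk continuousOn_id)
      fun s hs => hsub ⟨mem_closedBall_self hη.le, uIoc_subset_uIcc hs⟩
  · exact Eventually.of_forall fun s hs w hw => hC _ ⟨hw, uIoc_subset_uIcc hs⟩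
  · exact Eventually.of_forall fun s hs w hw =>
      hasDerivAt_dz (q := (w, s)) hfh (hsub ⟨hw, uIoc_subset_uIcc hs⟩)

theorem contDiffOn_int (ha : 0 < a) {F : Type} [NormedAddCommGroup F] [NormedSpace ℝ F]
    [CompleteSpace F] {f : ℂ × ℝ → F} (k : ℕ) (hf : ContDiffOn ℝ k f (dom r a)) :
    ContDiffOn ℝ k (fun q : ℂ × ℝ => ∫ s in (0:ℝ)..q.2, f (q.1, s)) (dom r a) := by
  let h : (ℂ × ℝ) × ℝ → ℂ × ℝ := fun x => (x.1.1, x.2 * x.1.2)
  have hh : ContDiff ℝ k h :=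
    (contDiff_fst.comp contDiff_fst).prodMk (contDiff_snd.mul (contDiff_snd.comp contDiff_fst))
  have hU : IsOpen (h ⁻¹' dom r a) := (isOpen_dom r a).preimage hh.continuous
  have := contDiffOn_param_integral k (f := f ∘ h) (a := 0) (b := 1) hU
    (hf.comp hh.contDiffOn (mapsTo_preimage _ _)) (isOpen_dom r a) (fun q hq t ht => by
      rw [uIcc_of_le zero_le_one] at ht
      refine hq.trans_le (gap_mono ha ?_)
      rw [abs_mul, abs_of_nonneg ht.1]
      exact mul_le_of_le_one_left (abs_nonneg _) ht.2)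
  refine (contDiff_snd.contDiffOn.smul this).congr fun q _ => ?_
  simp only [Function.comp_apply, h, Pi.smul_apply']
  rw [intervalIntegral.smul_integral_comp_mul_right (fun s => f (q.1, s))]
  simp

/-- Admissible functions with controlled derivative. -/
structure Good (r a δ : ℝ) (V : ℂ × ℝ → E) : Prop extends Adm r a δ V where
  dbound : ∀ q ∈ dom r a, ‖dz V q‖ ≤ 1 / Real.sqrt (gap r a q)

omit [CompleteSpace E] in
theorem Box.M_nonneg (hB : Box Φ U δ M L) (hδ : 0 ≤ δ) : 0 ≤ M :=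
  (norm_nonneg _).trans (hB.bound 0 (mem_closedBall_self hδ))

omit [CompleteSpace E] in
theorem Box.L_nonneg (hB : Box Φ U δ M L) (hδ : 0 ≤ δ) : 0 ≤ L :=
  (norm_nonneg _).trans (hB.lip 0 (mem_closedBall_self hδ))

theorem Good.step (hΦ : Box Φ U δ M L) (hΨ : Box Ψ U δ M L) (hp : Par r a δ)
    (h1 : 2 * a * (M + L) ≤ δ) (h2 : 8 * a * L ≤ 1) (hV : Good r a δ V) :
    Good r a δ (P229.step Φ Ψ V) := by
  have hδ : 0 ≤ δ := hp.rpos.le.trans hp.rle
  have hL := hΦ.L_nonneg hδ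
  have hM := hΦ.M_nonneg hδ
  have hA : Adm r a δ V := hV.toAdm
  have hrc := hA.rhs_cont hΦ hΨ hp
  have hrh := hA.rhs_hol hΦ hΨ hp
  have hd1 : ∀ {X : ℂ × ℝ × E → E}, Box X U δ M L → ∀ q ∈ dom r a,
      ‖dz (sub3 X V) q‖ ≤ L / Real.sqrt (gap r a q) := by
    intro X hX q hq
    have := hA.dz_sub3_le hX hp hq (one_le_inv_sqrt hp hq) (hV.dbound q hq)
    rwa [mul_one_div] at this
  have hderiv : ∀ q ∈ dom r a, HasDerivAt (fun w => P229.step Φ Ψ V (w, q.2))
      (∫ s in (0:ℝ)..q.2, dz (rhs Φ Ψ V) (q.1, s)) q.1 := fun q hq =>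
    hasDerivAt_step_z hp.apos hrc hrh hq
  refine ⟨⟨?_, fun q hq => (hderiv q hq).differentiableAt, fun q hq => ?_⟩, fun q hq => ?_⟩
  · exact contDiffOn_zero.1 (contDiffOn_int hp.apos 0 (contDiffOn_zero.2 hrc))
  · refine (norm_int_le_sqrt hp.apos (add_nonneg hM hL) hp.rle1 hq fun s hs => ?_).trans h1
    have hs' := seg_mem_dom hp.apos hq hs
    refine (norm_add_le _ _).trans ?_
    rw [add_div]
    refine add_le_add ?_ (hd1 hΨ _ hs')
    refine (hΦ.bound _ (hA.mem_box hp hs')).trans ?_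
    rw [div_eq_mul_one_div]
    exact le_mul_of_one_le_right hM (one_le_inv_sqrt hp hs')
  · rw [dz, (hderiv q hq).deriv]
    have hb := norm_int_le_mul_sqrt hp.apos (by linarith : (0:ℝ) ≤ 4 * L) hq
      (f := fun s => dz (rhs Φ Ψ V) (q.1, s)) fun s hs => by
        have hs' := seg_mem_dom hp.apos hq hs
        have e : dz (rhs Φ Ψ V) (q.1, s) = dz (sub3 Φ V) (q.1, s) +
            dz (dz (sub3 Ψ V)) (q.1, s) :=
          ((hasDerivAt_dz (hA.sub3_hol hΦ hp) hs').add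
            (hasDerivAt_dz (holSlices_dz (isOpen_dom r a) (hA.sub3_hol hΨ hp)) hs')).deriv
        rw [e]
        refine (norm_add_le _ _).trans ?_
        rw [show 4 * L = L + 3 * L by ring, add_div]
        exact add_le_add ((hd1 hΦ _ hs').trans (div_sqrt_le_div_mul_sqrt hp hs' hL))
          (dz_le_of_sqrt (holSlices_dz (isOpen_dom r a) (hA.sub3_hol hΨ hp)) hL
            (hd1 hΨ) hs')
    refine hb.trans ?_
    gcongr
    linarith

omit [CompleteSpace E] in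
theorem Box.sub3_sub_le (hB : Box Φ U δ M L) (hp : Par r a δ) (hV : Adm r a δ V)
    (hW : Adm r a δ W) {q : ℂ × ℝ} (hq : q ∈ dom r a) :
    ‖sub3 Φ V q - sub3 Φ W q‖ ≤ L * ‖V q - W q‖ := by
  have hd : ∀ x ∈ closedBall (0 : ℂ × ℝ × E) δ, DifferentiableAt ℝ Φ x := fun x hx =>
    (hB.smooth.contDiffAt (hB.isOpen.mem_nhds (hB.subset hx))).differentiableAt (by simp)
  refine ((convex_closedBall _ _).norm_image_sub_le_of_norm_fderiv_le hd hB.lip
    (hW.mem_box hp hq) (hV.mem_box hp hq)).trans (le_of_eq ?_)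
  simp [Prod.norm_def]

theorem Adm.step_sub_le (hΦ : Box Φ U δ M L) (hΨ : Box Ψ U δ M L) (hp : Par r a δ)
    (hV : Adm r a δ V) (hW : Adm r a δ W) {d : ℝ} (hd : 0 ≤ d)
    (h : ∀ q ∈ dom r a, ‖V q - W q‖ ≤ d / Real.sqrt (gap r a q))
    {q : ℂ × ℝ} (hq : q ∈ dom r a) :
    ‖P229.step Φ Ψ V q - P229.step Φ Ψ W q‖ ≤ 8 * a * L * d / Real.sqrt (gap r a q) := by
  have hδ : 0 ≤ δ := hp.rpos.le.trans hp.rle
  have hL := hΦ.L_nonneg hδ
  have hint : ∀ {X : ℂ × ℝ → E}, Adm r a δ X →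
      IntervalIntegrable (fun s => rhs Φ Ψ X (q.1, s)) volume 0 q.2 := fun hX =>
    ((hX.rhs_cont hΦ hΨ hp).comp (continuousOn_const.prodMk continuousOn_id)
      fun s hs => seg_mem_dom hp.apos hq hs).intervalIntegrable
  rw [P229.step, P229.step, ← intervalIntegral.integral_sub (hint hV) (hint hW)]
  have hb : ∀ {X : ℂ × ℝ × E → E}, Box X U δ M L → ∀ p ∈ dom r a,
      ‖sub3 X V p - sub3 X W p‖ ≤ L * d / Real.sqrt (gap r a p) := fun hX p hp' => by
    refine (hX.sub3_sub_le hp hV hW hp').trans ?_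
    rw [mul_div_assoc]
    exact mul_le_mul_of_nonneg_left (h p hp') hL
  refine (norm_int_le_mul_sqrt hp.apos (K := 4 * (L * d)) (by positivity) hq
    fun s hs => ?_).trans (le_of_eq (by ring))
  have hs' := seg_mem_dom hp.apos hq hs
  have e : dz (sub3 Ψ V) (q.1, s) - dz (sub3 Ψ W) (q.1, s)
      = dz (fun p => sub3 Ψ V p - sub3 Ψ W p) (q.1, s) :=
    ((hasDerivAt_dz (hV.sub3_hol hΨ hp) hs').sub
      (hasDerivAt_dz (hW.sub3_hol hΨ hp) hs')).deriv.symm
  rw [show rhs Φ Ψ V (q.1, s) - rhs Φ Ψ W (q.1, s) = (sub3 Φ V (q.1, s) - sub3 Φ W (q.1, s))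
      + (dz (sub3 Ψ V) (q.1, s) - dz (sub3 Ψ W) (q.1, s)) by simp only [rhs]; abel, e]
  refine (norm_add_le _ _).trans ?_
  rw [show 4 * (L * d) = L * d + 3 * (L * d) by ring, add_div]
  exact add_le_add ((hb hΦ _ hs').trans (div_sqrt_le_div_mul_sqrt hp hs' (by positivity)))
    (dz_le_of_sqrt (fun p hp' => (hV.sub3_hol hΨ hp p hp').sub (hW.sub3_hol hΨ hp p hp'))
      (by positivity) (hb hΨ) hs')

end P229
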