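import Mathlib
import Vale.Agent.P229.Nishida

/-!
Existence, smoothness and reality of the solution of the abstract Cauchy–Kovalevskaya problem.
-/

open Set Metric Filter MeasureTheory Complex
open scoped Topology ContDiff Interval ComplexConjugate

namespace P229

variable {E : Type} [NormedAddCommGroup E] [NormedSpace ℂ E]

theorem norm_conj' (z : ℂ) : ‖conj z‖ = ‖z‖ := Complex.norm_conj z

theorem gap_conj (r a : ℝ) (q : ℂ × ℝ) : gap r a (conj q.1, q.2) = gap r a q := by
  simp [gap]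

theorem conj_mem_dom {r a : ℝ} {q : ℂ × ℝ} (hq : q ∈ dom r a) : (conj q.1, q.2) ∈ dom r a := by
  show 0 < gap r a (conj q.1, q.2)
  rw [gap_conj]; exact hq

/-- Derivative at conjugate points of a function commuting with a real-linear conjugation `σ`. -/
theorem dz_conj {f : ℂ × ℝ → E} {O : Set (ℂ × ℝ)} (hO : IsOpen O) (hf : HolSlices f O)
    (hc : ∀ q ∈ O, (conj q.1, q.2) ∈ O) (σ : E →L[ℝ] E)
    (hσ : ∀ q ∈ O, f (conj q.1, q.2) = σ (f q)) {q : ℂ × ℝ} (hq : q ∈ O) :
    dz f (conj q.1, q.2) = σ (dz f q) := by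
  have hmem := hc q hq
  have h1 : HasFDerivAt (fun w : ℂ => f (w, q.2))
      ((ContinuousLinearMap.smulRight (1 : ℂ →L[ℂ] ℂ) (dz f (conj q.1, q.2))).restrictScalars ℝ)
      (conj q.1) := (hasDerivAt_dz hf hmem).hasFDerivAt.restrictScalars ℝ
  have h1' := h1.comp q.1 Complex.conjCLE.hasFDerivAt
  have h2 : HasFDerivAt (fun w : ℂ => f (w, q.2))
      ((ContinuousLinearMap.smulRight (1 : ℂ →L[ℂ] ℂ) (dz f q)).restrictScalars ℝ) q.1 :=
    (hasDerivAt_dz hf hq).hasFDerivAt.restrictScalars ℝ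
  have h2' := σ.hasFDerivAt.comp q.1 h2
  have hev : ((fun w : ℂ => f (w, q.2)) ∘ Complex.conjCLE) =ᶠ[𝓝 q.1]
      (σ ∘ fun w : ℂ => f (w, q.2)) := by
    have hV : IsOpen ((fun w : ℂ => (w, q.2)) ⁻¹' O) := hO.preimage (by fun_prop)
    filter_upwards [hV.mem_nhds hq] with w hw
    simpa using hσ (w, q.2) hw
  have key := congrArg (fun T : ℂ →L[ℝ] E => T 1)
    (h1'.unique (h2'.congr_of_eventuallyEq hev))
  simpa using key

/-- The abstract Cauchy–Kovalevskaya theorem (smooth in `y`, holomorphic in `z`). -/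
theorem exists_solution [CompleteSpace E] [ProperSpace E] {Φ Ψ : ℂ × ℝ × E → E}
    {U : Set (ℂ × ℝ × E)} (hU : IsOpen U) (h0 : (0 : ℂ × ℝ × E) ∈ U)
    (hΦs : ContDiffOn ℝ ∞ Φ U) (hΨs : ContDiffOn ℝ ∞ Ψ U)
    (hΦh : HolData Φ U) (hΨh : HolData Ψ U) (σ : E →L[ℝ] E)
    (hΦc : ∀ q ∈ U, Φ (conj q.1, q.2.1, σ q.2.2) = σ (Φ q))
    (hΨc : ∀ q ∈ U, Ψ (conj q.1, q.2.1, σ q.2.2) = σ (Ψ q)) :
    ∃ (ρ : ℝ) (V : ℂ × ℝ → E), 0 < ρ ∧ ContDiffOn ℝ ∞ V (ball 0 ρ) ∧
      HolSlices V (ball 0 ρ) ∧ HolSlices (rhs Φ Ψ V) (ball 0 ρ) ∧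
      (∀ z, V (z, 0) = 0) ∧
      (∀ q ∈ ball (0 : ℂ × ℝ) ρ, ((q.1, q.2, V q) : ℂ × ℝ × E) ∈ U ∧
        V (conj q.1, q.2) = σ (V q) ∧
        HasDerivAt (fun t => V (q.1, t)) (rhs Φ Ψ V q) q.2 ∧
        HasDerivAt (fun t => dz V (q.1, t)) (dz (rhs Φ Ψ V) q) q.2) := by
  obtain ⟨ε, hε, hball⟩ := Metric.isOpen_iff.1 hU 0 h0
  set δ := min (ε / 2) 1
  have hδ : 0 < δ := lt_min (half_pos hε) one_pos
  have hsub : closedBall (0 : ℂ × ℝ × E) δ ⊆ U :=
    (closedBall_subset_ball (by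
      have : δ ≤ ε / 2 := min_le_left _ _
      linarith)).trans hball
  have hcpt := isCompact_closedBall (0 : ℂ × ℝ × E) δ
  obtain ⟨M1, hM1⟩ := hcpt.exists_bound_of_continuousOn (hΦs.continuousOn.mono hsub)
  obtain ⟨M2, hM2⟩ := hcpt.exists_bound_of_continuousOn (hΨs.continuousOn.mono hsub)
  obtain ⟨L1, hL1⟩ := hcpt.exists_bound_of_continuousOn
    ((hΦs.continuousOn_fderiv_of_isOpen hU (by simp)).mono hsub)
  obtain ⟨L2, hL2⟩ := hcpt.exists_bound_of_continuousOn
    ((hΨs.continuousOn_fderiv_of_isOpen hU (by simp)).mono hsub)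
  set M := max M1 M2
  set L := max L1 L2
  have hΦ : Box Φ U δ M L := ⟨hU, hΦs, hΦh, hsub, fun q hq => (hM1 q hq).trans (le_max_left _ _),
    fun q hq => (hL1 q hq).trans (le_max_left _ _)⟩
  have hΨ : Box Ψ U δ M L := ⟨hU, hΨs, hΨh, hsub,
    fun q hq => (hM2 q hq).trans (le_max_right _ _),
    fun q hq => (hL2 q hq).trans (le_max_right _ _)⟩
  have hM0 := hΦ.M_nonneg hδ.le
  have hL0 := hΦ.L_nonneg hδ.le
  set a := min 1 (min (δ / (2 * (M + L) + 1)) (1 / (16 * L + 1)))
  have ha : 0 < a := lt_min one_pos (lt_min (by positivity) (by positivity))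
  have hp : Par δ a δ := ⟨hδ, le_rfl, min_le_right _ _, ha, min_le_left _ _⟩
  have hc1 : 2 * a * (M + L) ≤ δ := by
    have h : a ≤ δ / (2 * (M + L) + 1) := (min_le_right _ _).trans (min_le_left _ _)
    rw [le_div_iff₀ (by positivity)] at h
    linarith
  have hc2 : 8 * a * L ≤ 1 / 2 := by
    have h : a ≤ 1 / (16 * L + 1) := (min_le_right _ _).trans (min_le_right _ _)
    rw [le_div_iff₀ (by positivity)] at h
    linarith
  set D := dom δ a with hD
  set Vn : ℕ → ℂ × ℝ → E := fun n => (step Φ Ψ)^[n] 0 with hVn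
  have hsucc : ∀ n, Vn (n + 1) = step Φ Ψ (Vn n) := fun n =>
    Function.iterate_succ_apply' _ _ _
  have hgood : ∀ n, Good δ a δ (Vn n) := by
    intro n
    induction n with
    | zero =>
      refine ⟨⟨continuousOn_const, fun q _ => ?_, fun q _ => ?_⟩, fun q hq => ?_⟩
      · exact differentiableAt_const (0 : E)
      · simpa [hVn] using hδ.le
      · have : dz (Vn 0) q = 0 := by simp [hVn, dz]
        rw [this, norm_zero]; positivity
    | succ n ih => rw [hsucc]; exact ih.step hΦ hΨ hp hc1 (by linarith)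
  have hdiff : ∀ n, ∀ q ∈ D,
      ‖Vn (n + 1) q - Vn n q‖ ≤ (1 / 2) ^ n / Real.sqrt (gap δ a q) := by
    intro n
    induction n with
    | zero =>
      intro q hq
      have h1 : Vn 0 q = 0 := rfl
      rw [h1, sub_zero, pow_zero]
      exact ((hgood 1).bound q hq).trans ((min_le_right _ _).trans (one_le_inv_sqrt hp hq))
    | succ n ih =>
      intro q hq
      rw [hsucc (n + 1)]
      conv_lhs => arg 1; arg 2; rw [hsucc n]
      refine ((hgood (n + 1)).toAdm.step_sub_le hΦ hΨ hp (hgood n).toAdm (by positivity) ih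
        hq).trans ?_
      rw [pow_succ']
      gcongr
  -- the limit
  have hcau : ∀ q, ∃ l : E, q ∈ D → Tendsto (fun n => Vn n q) atTop (𝓝 l) := by
    intro q
    by_cases hq : q ∈ D
    · obtain ⟨l, hl⟩ := cauchySeq_tendsto_of_complete
        (cauchySeq_of_le_geometric (1 / 2) (1 / Real.sqrt (gap δ a q)) (by norm_num)
          (f := fun n => Vn n q) fun n => by
          rw [dist_comm, dist_eq_norm, one_div_mul_eq_div]
          exact hdiff n q hq)
      exact ⟨l, fun _ => hl⟩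
    · exact ⟨0, fun h => absurd h hq⟩
  choose V hV using hcau
  have herr : ∀ n, ∀ q ∈ D, ‖Vn n q - V q‖ ≤ 2 * (1 / 2) ^ n / Real.sqrt (gap δ a q) := by
    intro n q hq
    rw [← dist_eq_norm]
    refine (dist_le_of_le_geometric_of_tendsto (1 / 2) (1 / Real.sqrt (gap δ a q)) (by norm_num)
      (f := fun n => Vn n q) (fun n => by
        rw [dist_comm, dist_eq_norm, one_div_mul_eq_div]; exact hdiff n q hq) (hV q hq) n).trans
      (le_of_eq (by ring))
  have hpow : Tendsto (fun n : ℕ => (1 / 2 : ℝ) ^ n) atTop (𝓝 0) :=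
    tendsto_pow_atTop_nhds_zero_of_lt_one (by norm_num) (by norm_num)
  have hlu : TendstoLocallyUniformlyOn Vn V atTop D := by
    rw [Metric.tendstoLocallyUniformlyOn_iff]
    intro e he x hx
    have hx0 : 0 < gap δ a x := hx
    refine ⟨{q | gap δ a x / 2 < gap δ a q}, mem_nhdsWithin_of_mem_nhds
      ((isOpen_lt continuous_const (continuous_gap δ a)).mem_nhds (half_lt_self hx0)), ?_⟩
    have ht : Tendsto (fun n : ℕ => 2 * (1 / 2 : ℝ) ^ n / Real.sqrt (gap δ a x / 2)) atTop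
        (𝓝 0) := by simpa using (hpow.const_mul 2).div_const (Real.sqrt (gap δ a x / 2))
    filter_upwards [ht.eventually (gt_mem_nhds he)] with n hn q hq
    have hqD : q ∈ D := (half_pos hx0).trans hq
    rw [dist_comm, dist_eq_norm]
    refine ((herr n q hqD).trans ?_).trans_lt hn
    gcongr
  have hA : Adm δ a δ V := by
    refine ⟨hlu.continuousOn (Eventually.of_forall fun n => (hgood n).cont).frequently,
      fun q hq => ?_, fun q hq => ?_⟩
    · have hO : IsOpen ((fun w : ℂ => (w, q.2)) ⁻¹' D) :=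
        (isOpen_dom δ a).preimage (by fun_prop)
      have h1 : TendstoLocallyUniformlyOn (fun n w => Vn n (w, q.2)) (fun w => V (w, q.2)) atTop
          ((fun w : ℂ => (w, q.2)) ⁻¹' D) :=
        hlu.comp (fun w : ℂ => (w, q.2)) (mapsTo_preimage _ _) (by fun_prop)
      exact (h1.differentiableOn (Eventually.of_forall fun n w hw =>
        ((hgood n).hol (w, q.2) hw).differentiableWithinAt) hO).differentiableAt (hO.mem_nhds hq)
    · exact le_of_tendsto ((hV q hq).norm) (Eventually.of_forall fun n => (hgood n).bound q hq)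
  have hfix : ∀ q ∈ D, V q = step Φ Ψ V q := by
    intro q hq
    refine tendsto_nhds_unique ((hV q hq).comp (tendsto_add_atTop_nat 1)) ?_
    refine tendsto_iff_norm_sub_tendsto_zero.2 ?_
    refine squeeze_zero (fun _ => norm_nonneg _)
      (g := fun n : ℕ => 8 * a * L * (2 * (1 / 2) ^ n) / Real.sqrt (gap δ a q)) (fun n => ?_) ?_
    · simp only [Function.comp_apply, hsucc]
      exact (hgood n).toAdm.step_sub_le hΦ hΨ hp hA (by positivity) (herr n) hq
    · simpa using ((hpow.const_mul 2).const_mul (8 * a * L)).div_const (Real.sqrt (gap δ a q))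
  have hrc := hA.rhs_cont hΦ hΨ hp
  have hrh := hA.rhs_hol hΦ hΨ hp
  have hrd : ContinuousOn (dz (rhs Φ Ψ V)) D := continuousOn_dz (isOpen_dom δ a) hrh hrc
  have hdzV : ∀ q ∈ D, dz V q = ∫ s in (0:ℝ)..q.2, dz (rhs Φ Ψ V) (q.1, s) := by
    intro q hq
    refine (HasDerivAt.congr_of_eventuallyEq (hasDerivAt_step_z ha hrc hrh hq) ?_).deriv
    have hO : IsOpen ((fun w : ℂ => (w, q.2)) ⁻¹' D) :=
      (isOpen_dom δ a).preimage (by fun_prop)
    filter_upwards [hO.mem_nhds hq] with w hw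
    exact hfix (w, q.2) hw
  have hftc : ∀ (f : ℂ × ℝ → E), ContinuousOn f D → ∀ (g : ℂ × ℝ → E),
      (∀ q ∈ D, g q = ∫ s in (0:ℝ)..q.2, f (q.1, s)) → ∀ q ∈ D,
      HasDerivAt (fun t => g (q.1, t)) (f q) q.2 := by
    intro f hf g hg q hq
    have hO : IsOpen ((fun t : ℝ => (q.1, t)) ⁻¹' D) :=
      (isOpen_dom δ a).preimage (by fun_prop)
    have hfs : ContinuousOn (fun t => f (q.1, t)) ((fun t : ℝ => (q.1, t)) ⁻¹' D) :=
      hf.comp (by fun_prop) (mapsTo_preimage _ _)
    have hint : IntervalIntegrable (fun t => f (q.1, t)) volume 0 q.2 :=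
      (hfs.mono fun s hs => seg_mem_dom ha hq hs).intervalIntegrable
    refine HasDerivAt.congr_of_eventuallyEq (intervalIntegral.integral_hasDerivAt_right hint
      (hfs.stronglyMeasurableAtFilter hO _ hq) (hfs.continuousAt (hO.mem_nhds hq))) ?_
    filter_upwards [hO.mem_nhds hq] with t ht
    exact hg (q.1, t) ht
  have hy := hftc _ hrc V hfix
  have hzy := hftc _ hrd (dz V) hdzV
  -- smoothness
  let L₁ : E →L[ℝ] ℂ →L[ℝ] E := (ContinuousLinearMap.lsmul ℝ ℂ).flip
  let L₂ : E →L[ℝ] ℝ →L[ℝ] E := (ContinuousLinearMap.lsmul ℝ ℝ).flip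
  have hfd : ∀ q ∈ D, HasFDerivAt V ((L₁ (dz V q)).coprod (L₂ (rhs Φ Ψ V q))) q := by
    intro q hq
    have hdc : ContinuousOn (dz V) D := continuousOn_dz (isOpen_dom δ a) hA.hol hA.cont
    have h1 : ∀ᶠ v in 𝓝 q, HasFDerivAt (fun w : ℂ => V (w, v.2)) (L₁ (dz V v)) v.1 := by
      filter_upwards [(isOpen_dom δ a).mem_nhds hq] with v hv
      refine ((hasDerivAt_dz hA.hol hv).hasFDerivAt.restrictScalars ℝ).congr_fderiv ?_
      ext x
      simp [L₁]
    have h2 : ∀ᶠ v in 𝓝 q, HasFDerivAt (fun t : ℝ => V (v.1, t)) (L₂ (rhs Φ Ψ V v)) v.2 := by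
      filter_upwards [(isOpen_dom δ a).mem_nhds hq] with v hv
      refine (hy v hv).hasFDerivAt.congr_fderiv ?_
      ext
      simp [L₂]
    exact (hasStrictFDerivAt_uncurry_coprod (f := fun z t => V (z, t))
      (f₁ := fun z t => L₁ (dz V (z, t))) (f₂ := fun z t => L₂ (rhs Φ Ψ V (z, t))) h1 h2
      (L₁.continuous.continuousAt.comp (hdc.continuousAt ((isOpen_dom δ a).mem_nhds hq)))
      (L₂.continuous.continuousAt.comp
        (hrc.continuousAt ((isOpen_dom δ a).mem_nhds hq)))).hasFDerivAt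
  have hsmooth : ∀ k : ℕ, ContDiffOn ℝ k V D := by
    intro k
    induction k with
    | zero => exact contDiffOn_zero.2 hA.cont
    | succ k ih =>
      have hs : ∀ {X : ℂ × ℝ × E → E}, Box X U δ M L → ContDiffOn ℝ k (sub3 X V) D := fun hX =>
        (hX.smooth.of_le (WithTop.coe_le_coe.2 le_top)).comp
          (contDiffOn_fst.prodMk (contDiffOn_snd.prodMk ih))
          fun _ hq => hX.subset (hA.mem_box hp hq)
      have hr : ContDiffOn ℝ k (rhs Φ Ψ V) D :=
        (hs hΦ).add (contDiffOn_dz (isOpen_dom δ a) (hA.sub3_hol hΨ hp) k (hs hΨ))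
      have hdv : ContDiffOn ℝ k (dz V) D :=
        (contDiffOn_int ha k (contDiffOn_dz (isOpen_dom δ a) hrh k hr)).congr hdzV
      rw [show ((k + 1 : ℕ) : ℕ∞ω) = (k : ℕ∞ω) + 1 from rfl,
        contDiffOn_succ_iff_fderiv_of_isOpen (isOpen_dom δ a)]
      refine ⟨fun q hq => (hfd q hq).differentiableAt.differentiableWithinAt,
        fun h => absurd h (by simp), ?_⟩
      refine ((((L₁.contDiff.comp_contDiffOn hdv).clm_comp
        (contDiffOn_const (c := ContinuousLinearMap.fst ℝ ℂ ℝ))).add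
        ((L₂.contDiff.comp_contDiffOn hr).clm_comp
          (contDiffOn_const (c := ContinuousLinearMap.snd ℝ ℂ ℝ)))).congr
          (f₁ := fderiv ℝ V) fun q hq => ?_)
      rw [(hfd q hq).fderiv]
      exact ContinuousLinearMap.ext fun x => by simp
  -- symmetry
  have hsymm : ∀ n, ∀ q ∈ D, Vn n (conj q.1, q.2) = σ (Vn n q) := by
    intro n
    induction n with
    | zero => intro q _; simp [hVn]
    | succ n ih =>
      intro q hq
      have hs : ∀ {X : ℂ × ℝ × E → E}, Box X U δ M L →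
          (∀ p ∈ U, X (conj p.1, p.2.1, σ p.2.2) = σ (X p)) → ∀ p ∈ D,
          sub3 X (Vn n) (conj p.1, p.2) = σ (sub3 X (Vn n) p) := by
        intro X hX hc p hp'
        simp only [sub3]
        rw [ih p hp']
        exact hc (p.1, p.2, Vn n p) (hX.subset ((hgood n).toAdm.mem_box hp hp'))
      have hint : IntervalIntegrable (fun s => rhs Φ Ψ (Vn n) (q.1, s)) volume 0 q.2 :=
        (((hgood n).toAdm.rhs_cont hΦ hΨ hp).comp (continuousOn_const.prodMk continuousOn_id)
          fun s hs' => seg_mem_dom ha hq hs').intervalIntegrable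
      rw [hsucc, step, step, ← σ.intervalIntegral_comp_comm hint]
      refine intervalIntegral.integral_congr fun s hs' => ?_
      have hq' := seg_mem_dom ha hq hs'
      simp only [rhs, map_add]
      rw [hs hΦ hΦc _ hq', dz_conj (isOpen_dom δ a) ((hgood n).toAdm.sub3_hol hΨ hp)
        (fun _ h => conj_mem_dom h) σ (hs hΨ hΨc) hq']
  have hVc : ∀ q ∈ D, V (conj q.1, q.2) = σ (V q) := fun q hq =>
    tendsto_nhds_unique (hV _ (conj_mem_dom hq))
      (((σ.continuous.tendsto _).comp (hV q hq)).congr fun n => (hsymm n q hq).symm)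
  have hρ : 0 < a * δ / 2 := by positivity
  have hBD : ball (0 : ℂ × ℝ) (a * δ / 2) ⊆ D := by
    intro q hq
    rw [mem_ball, dist_zero_right, Prod.norm_def, max_lt_iff, Real.norm_eq_abs] at hq
    have h1 : |q.2| / a < δ / 2 := by rw [div_lt_iff₀ ha]; linarith
    have h2 : a * δ ≤ δ := mul_le_of_le_one_left hδ.le hp.ale
    show 0 < gap δ a q
    simp only [gap]
    linarith
  refine ⟨a * δ / 2, fun q => if q.2 = 0 then 0 else V q, hρ, ?_⟩
  have hVeq : ∀ q ∈ D, (if q.2 = 0 then 0 else V q) = V q := by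
    intro q hq
    split_ifs with h
    · rw [hfix q hq, step, h, intervalIntegral.integral_same]
    · rfl
  set W : ℂ × ℝ → E := fun q => if q.2 = 0 then 0 else V q with hW
  have hWD : EqOn W V D := hVeq
  have hnh : ∀ q ∈ D, ∀ᶠ w in 𝓝 q.1, (w, q.2) ∈ D := fun q hq =>
    ((isOpen_dom δ a).preimage (by fun_prop : Continuous fun w : ℂ => (w, q.2))).mem_nhds hq
  have hdzW : ∀ q ∈ D, dz W q = dz V q := by
    intro q hq
    refine Filter.EventuallyEq.deriv_eq ?_
    filter_upwards [hnh q hq] with w hw using hWD hw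
  have hsubW : ∀ (X : ℂ × ℝ × E → E), EqOn (sub3 X W) (sub3 X V) D := by
    intro X q hq
    simp only [sub3, hWD hq]
  have hrW : EqOn (rhs Φ Ψ W) (rhs Φ Ψ V) D := by
    intro q hq
    simp only [rhs, hsubW Φ hq]
    congr 1
    refine Filter.EventuallyEq.deriv_eq ?_
    filter_upwards [hnh q hq] with w hw using hsubW Ψ hw
  refine ⟨(contDiffOn_infty.2 fun k => (hsmooth k).congr hWD).mono hBD,
    fun q hq => (hA.hol q (hBD hq)).congr_of_eventuallyEq ?_,
    fun q hq => (hrh q (hBD hq)).congr_of_eventuallyEq ?_, fun z => by simp [hW], fun q hq => ?_⟩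
  · filter_upwards [hnh q (hBD hq)] with w hw using hWD hw
  · filter_upwards [hnh q (hBD hq)] with w hw using hrW hw
  · have hqD := hBD hq
    have hnt : ∀ᶠ t in 𝓝 q.2, (q.1, t) ∈ D :=
      ((isOpen_dom δ a).preimage (by fun_prop : Continuous fun t : ℝ => (q.1, t))).mem_nhds hqD
    refine ⟨?_, ?_, ?_, ?_⟩
    · rw [hWD hqD]; exact hsub (hA.mem_box hp hqD)
    · rw [hWD hqD, hWD (conj_mem_dom hqD)]; exact hVc q hqD
    · rw [hrW hqD]
      refine (hy q hqD).congr_of_eventuallyEq ?_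
      filter_upwards [hnt] with t ht using hWD ht
    · have e : dz (rhs Φ Ψ W) q = dz (rhs Φ Ψ V) q := by
        refine Filter.EventuallyEq.deriv_eq ?_
        filter_upwards [hnh q hqD] with w hw using hrW hw
      rw [e]
      refine (hzy q hqD).congr_of_eventuallyEq ?_
      filter_upwards [hnt] with t ht using hdzW _ ht

end P229
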