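import Mathlib
import Vale.Agent.P229.Solution

/-!
The Janet–Cartan system for an isometric immersion of a surface in three-space, written as a
system in conservation form, and its initial data along a curved analytic arc.
-/

open Set Metric Filter MeasureTheory Complex
open scoped Topology ContDiff Interval ComplexConjugate

namespace P229

/-- Complexified three-vectors. -/
abbrev V3 := Fin 3 → ℂ

/-- State `(F_x, F_y, F_xx, F_xy)`. -/
abbrev St := V3 × V3 × V3 × V3

/-- Bilinear (not sesquilinear) dot product. -/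
def dt (u v : V3) : ℂ := u 0 * v 0 + u 1 * v 1 + u 2 * v 2

/-- Cross product. -/
def cr (u v : V3) : V3 :=
  ![u 1 * v 2 - u 2 * v 1, u 2 * v 0 - u 0 * v 2, u 0 * v 1 - u 1 * v 0]

/-- The determinant `A · (P × C)`. -/
def tri (W : St) : ℂ := dt W.1 (cr W.2.1 W.2.2.1)

theorem dt_comm (u v : V3) : dt u v = dt v u := by simp only [dt]; ring

/-- Componentwise conjugation of vectors. -/
noncomputable def cjV : V3 →L[ℝ] V3 :=
  ContinuousLinearMap.pi fun i =>
    (Complex.conjCLE : ℂ →L[ℝ] ℂ).comp (ContinuousLinearMap.proj i)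

theorem cjV_apply (u : V3) (i : Fin 3) : cjV u i = conj (u i) := by simp [cjV]

/-- Conjugation of states. -/
noncomputable def cjS : St →L[ℝ] St := cjV.prodMap (cjV.prodMap (cjV.prodMap cjV))

theorem cjS_apply (W : St) :
    cjS W = (cjV W.1, cjV W.2.1, cjV W.2.2.1, cjV W.2.2.2) := rfl

/-- The solution `X` of `X·A = a`, `X·P = b`, `X·C = D·D + c` by Cramer's rule. -/
noncomputable def cramer (a b c : ℂ) (W : St) : V3 :=
  (tri W)⁻¹ • (a • cr W.2.1 W.2.2.1 + b • cr W.2.2.1 W.1 + (dt W.2.2.2 W.2.2.2 + c) • cr W.1 W.2.1)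

theorem cramer_A {a b c : ℂ} {W : St} (h : tri W ≠ 0) : dt (cramer a b c W) W.1 = a := by
  have : dt (cramer a b c W) W.1 = (tri W)⁻¹ * (a * tri W) := by
    simp [cramer, tri, dt, cr]; ring
  rw [this]; field_simp

theorem cramer_P {a b c : ℂ} {W : St} (h : tri W ≠ 0) : dt (cramer a b c W) W.2.1 = b := by
  have : dt (cramer a b c W) W.2.1 = (tri W)⁻¹ * (b * tri W) := by
    simp [cramer, tri, dt, cr]; ring
  rw [this]; field_simp

theorem cramer_C {a b c : ℂ} {W : St} (h : tri W ≠ 0) :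
    dt (cramer a b c W) W.2.2.1 = dt W.2.2.2 W.2.2.2 + c := by
  have : dt (cramer a b c W) W.2.2.1 = (tri W)⁻¹ * ((dt W.2.2.2 W.2.2.2 + c) * tri W) := by
    simp [cramer, tri, dt, cr]; ring
  rw [this]; field_simp

theorem cramer_conj (a b c : ℂ) (W : St) :
    cramer (conj a) (conj b) (conj c) (cjS W) = cjV (cramer a b c W) := by
  funext i
  fin_cases i <;> simp [cramer, cjS_apply, cjV_apply, tri, dt, cr]

section smooth

variable {𝕜 : Type} [NontriviallyNormedField 𝕜] [NormedAlgebra 𝕜 ℂ] {X : Type}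
  [NormedAddCommGroup X] [NormedSpace 𝕜 X] {s : Set X} {n : ℕ∞ω}

theorem contDiffOn_dt {u v : X → V3} (hu : ContDiffOn 𝕜 n u s) (hv : ContDiffOn 𝕜 n v s) :
    ContDiffOn 𝕜 n (fun x => dt (u x) (v x)) s := by
  rw [contDiffOn_pi] at hu hv
  exact (((hu 0).mul (hv 0)).add ((hu 1).mul (hv 1))).add ((hu 2).mul (hv 2))

theorem contDiffOn_cr {u v : X → V3} (hu : ContDiffOn 𝕜 n u s) (hv : ContDiffOn 𝕜 n v s) :
    ContDiffOn 𝕜 n (fun x => cr (u x) (v x)) s := by
  rw [contDiffOn_pi] at hu hv ⊢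
  intro i
  fin_cases i <;> simp [cr]
  · exact ((hu 1).mul (hv 2)).sub ((hu 2).mul (hv 1))
  · exact ((hu 2).mul (hv 0)).sub ((hu 0).mul (hv 2))
  · exact ((hu 0).mul (hv 1)).sub ((hu 1).mul (hv 0))

theorem contDiffOn_tri {W : X → St} (hW : ContDiffOn 𝕜 n W s) :
    ContDiffOn 𝕜 n (fun x => tri (W x)) s :=
  contDiffOn_dt hW.fst (contDiffOn_cr hW.snd.fst hW.snd.snd.fst)

theorem contDiffOn_cramer {a b c : X → ℂ} {W : X → St} (ha : ContDiffOn 𝕜 n a s)
    (hb : ContDiffOn 𝕜 n b s) (hc : ContDiffOn 𝕜 n c s) (hW : ContDiffOn 𝕜 n W s)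
    (h : ∀ x ∈ s, tri (W x) ≠ 0) :
    ContDiffOn 𝕜 n (fun x => cramer (a x) (b x) (c x) (W x)) s := by
  unfold cramer
  refine ((contDiffOn_tri hW).inv h).smul (((ha.smul (contDiffOn_cr hW.snd.fst hW.snd.snd.fst)).add
    (hb.smul (contDiffOn_cr hW.snd.snd.fst hW.fst))).add ?_)
  exact ((contDiffOn_dt hW.snd.snd.snd hW.snd.snd.snd).add hc).smul
    (contDiffOn_cr hW.fst hW.snd.fst)

theorem differentiableAt_cramer {a b c : X → ℂ} {W : X → St} {x : X}
    (ha : DifferentiableAt 𝕜 a x) (hb : DifferentiableAt 𝕜 b x) (hc : DifferentiableAt 𝕜 c x)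
    (hW : DifferentiableAt 𝕜 W x) (h : tri (W x) ≠ 0) :
    DifferentiableAt 𝕜 (fun x => cramer (a x) (b x) (c x) (W x)) x := by
  have h1 := differentiableAt_pi.1 hW.fst
  have h2 := differentiableAt_pi.1 hW.snd.fst
  have h3 := differentiableAt_pi.1 hW.snd.snd.fst
  have h4 := differentiableAt_pi.1 hW.snd.snd.snd
  rw [differentiableAt_pi]
  intro i
  unfold cramer
  simp only [Pi.smul_apply, Pi.add_apply, smul_eq_mul]
  refine DifferentiableAt.mul (DifferentiableAt.fun_inv (𝕜 := 𝕜) ?_ h) ?_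
  · simp [tri, dt, cr]; fun_prop
  · fin_cases i <;> simp [dt, cr] <;> fun_prop

end smooth

/-- The class of coefficient functions: smooth, holomorphic in `z`, real on the real axis. -/
structure Ext (O : Set (ℂ × ℝ)) (g : ℂ × ℝ → ℂ) : Prop where
  isOpen : IsOpen O
  symmSet : ∀ q ∈ O, (conj q.1, q.2) ∈ O
  smooth : ContDiffOn ℝ ∞ g O
  hol : HolSlices g O
  symm : ∀ q ∈ O, g (conj q.1, q.2) = conj (g q)

variable {O : Set (ℂ × ℝ)} {e f g : ℂ × ℝ → ℂ}

theorem Ext.dz (h : Ext O g) : Ext O (dz g) where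
  isOpen := h.isOpen
  symmSet := h.symmSet
  smooth := contDiffOn_dz_infty h.isOpen h.hol h.smooth
  hol := holSlices_dz h.isOpen h.hol
  symm q hq := dz_conj h.isOpen h.hol h.symmSet (Complex.conjCLE : ℂ →L[ℝ] ℂ)
    (fun p hp => by simpa using h.symm p hp) hq

theorem Ext.dy (h : Ext O g) : Ext O (dy g) where
  isOpen := h.isOpen
  symmSet := h.symmSet
  smooth := contDiffOn_dy_infty h.isOpen h.smooth
  hol := holSlices_dy h.isOpen h.hol h.smooth
  symm q hq := by
    have hd : ∀ p ∈ O, DifferentiableAt ℝ g p := fun p hp =>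
      (h.smooth.contDiffAt (h.isOpen.mem_nhds hp)).differentiableAt (by simp)
    have h1 := hasDerivAt_dy (hd _ (h.symmSet q hq))
    have h2 : HasDerivAt (fun t => conj (g (q.1, t))) (conj (P229.dy g q)) q.2 :=
      Complex.conjCLE.hasFDerivAt.comp_hasDerivAt q.2 (hasDerivAt_dy (hd q hq))
    refine h1.unique (h2.congr_of_eventuallyEq ?_)
    filter_upwards [(h.isOpen.preimage (by fun_prop : Continuous fun t : ℝ => (q.1, t))).mem_nhds hq]
      with t ht using h.symm (q.1, t) ht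

theorem Ext.sub_half (h : Ext O e) (h' : Ext O f) : Ext O (fun q => e q - 1 / 2 * f q) where
  isOpen := h.isOpen
  symmSet := h.symmSet
  smooth := h.smooth.sub (contDiffOn_const.mul h'.smooth)
  hol q hq := (h.hol q hq).sub ((differentiableAt_const _).mul (h'.hol q hq))
  symm q hq := by rw [h.symm q hq, h'.symm q hq]; simp [map_ofNat]

theorem Ext.half (h : Ext O f) : Ext O (fun q => 1 / 2 * f q) where
  isOpen := h.isOpen
  symmSet := h.symmSet
  smooth := contDiffOn_const.mul h.smooth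
  hol q hq := (differentiableAt_const _).mul (h.hol q hq)
  symm q hq := by rw [h.symm q hq]; simp [map_ofNat]

/-- `a = f_y - g_x / 2`. -/
noncomputable def aC (f g : ℂ × ℝ → ℂ) (q : ℂ × ℝ) : ℂ := dy f q - 1 / 2 * dz g q

/-- `b = g_y / 2`. -/
noncomputable def bC (g : ℂ × ℝ → ℂ) (q : ℂ × ℝ) : ℂ := 1 / 2 * dy g q

/-- `c = a_x - e_yy / 2`. -/
noncomputable def cC (e f g : ℂ × ℝ → ℂ) (q : ℂ × ℝ) : ℂ :=
  dz (aC f g) q - 1 / 2 * dy (dy e) q

/-- Complex square root on the slit plane. -/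
noncomputable def cs (w : ℂ) : ℂ := Complex.exp (Complex.log w / 2)

theorem cs_sq {w : ℂ} (h : w ≠ 0) : cs w * cs w = w := by
  rw [cs, ← Complex.exp_add, add_halves, Complex.exp_log h]

theorem cs_ne_zero (w : ℂ) : cs w ≠ 0 := Complex.exp_ne_zero _

theorem cs_conj {w : ℂ} (h : w ∈ slitPlane) : cs (conj w) = conj (cs w) := by
  rw [cs, cs, Complex.log_conj w (slitPlane_arg_ne_pi h), ← Complex.exp_conj]
  simp [map_ofNat]

theorem differentiableAt_cs {w : ℂ} (h : w ∈ slitPlane) : DifferentiableAt ℂ cs w :=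
  ((Complex.differentiableAt_log h).div_const 2).cexp

theorem cs_ofReal {x : ℝ} (hx : 0 ≤ x) :
    cs (x : ℂ) = ((Real.exp (Real.log x / 2) : ℝ) : ℂ) := by
  rw [cs, ← Complex.ofReal_log hx, Complex.ofReal_exp]
  push_cast
  ring_nf

/-- Initial data: the hypotheses are those at the centre, the conclusion holds on a disc. -/
theorem exists_initial (he : Ext O e) (hf : Ext O f) (hg : Ext O g) (h0 : (0 : ℂ × ℝ) ∈ O)
    {e0 f0 g0 : ℝ} (hee : e 0 = e0) (hff : f 0 = f0) (hgg : g 0 = g0) (hpos : 0 < e0)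
    (hdet : f0 ^ 2 < e0 * g0) :
    ∃ (ρ : ℝ) (A P : ℂ → V3), 0 < ρ ∧ DifferentiableOn ℂ A (ball 0 ρ) ∧
      DifferentiableOn ℂ P (ball 0 ρ) ∧
      (∀ z ∈ ball (0 : ℂ) ρ, (z, (0:ℝ)) ∈ O ∧ A (conj z) = cjV (A z) ∧ P (conj z) = cjV (P z) ∧
        dt (A z) (A z) = e (z, 0) ∧ dt (A z) (P z) = f (z, 0) ∧ dt (P z) (P z) = g (z, 0) ∧
        dt (A z) (deriv P z) = 1 / 2 * dy e (z, 0)) ∧
      tri (A 0, P 0, deriv A 0, deriv P 0) ≠ 0 := by
  set O1 : Set ℂ := (fun z : ℂ => (z, (0 : ℝ))) ⁻¹' O with hO1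
  have hO1o : IsOpen O1 := he.isOpen.preimage (by fun_prop)
  have hcont : ∀ {φ : ℂ × ℝ → ℂ}, Ext O φ → DifferentiableOn ℂ (fun z => φ (z, 0)) O1 :=
    fun hφ z hz => (hφ.hol (z, 0) hz).differentiableWithinAt
  set O2 : Set ℂ := O1 ∩ (fun z => e (z, 0)) ⁻¹' slitPlane with hO2
  have hO2o : IsOpen O2 := (hcont he).continuousOn.isOpen_inter_preimage hO1o isOpen_slitPlane
  have h02 : (0 : ℂ) ∈ O2 := by
    refine ⟨h0, ?_⟩
    show e (0, 0) ∈ slitPlane
    rw [show ((0 : ℂ), (0 : ℝ)) = (0 : ℂ × ℝ) from rfl, hee]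
    exact ofReal_mem_slitPlane.2 hpos
  set s : ℂ → ℂ := fun z => cs (e (z, 0)) with hs
  have hsd : DifferentiableOn ℂ s O2 := fun z hz =>
    (DifferentiableAt.comp z (differentiableAt_cs hz.2) (he.hol (z, 0) hz.1)).differentiableWithinAt
  have hsd' : DifferentiableOn ℂ (deriv s) O2 := hsd.deriv hO2o
  have hsymO2 : ∀ z ∈ O2, conj z ∈ O2 := fun z hz => by
    refine ⟨he.symmSet (z, 0) hz.1, ?_⟩
    show e (conj z, 0) ∈ slitPlane
    rw [he.symm (z, 0) hz.1]
    have := hz.2
    rcases mem_slitPlane_iff.1 this with h | h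
    · exact mem_slitPlane_iff.2 (Or.inl (by simpa using h))
    · exact mem_slitPlane_iff.2 (Or.inr (by simpa using h))
  have hsc : ∀ z ∈ O2, s (conj z) = conj (s z) := fun z hz => by
    simp only [hs]
    rw [he.symm (z, 0) hz.1, cs_conj hz.2]
  have hsc' : ∀ z ∈ O2, deriv s (conj z) = conj (deriv s z) := fun z hz => by
    have hset : IsOpen {q : ℂ × ℝ | q.1 ∈ O2} := hO2o.preimage continuous_fst
    simpa [dz] using dz_conj (f := fun q : ℂ × ℝ => s q.1) (O := {q | q.1 ∈ O2}) hset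
      (fun q hq => hsd.differentiableAt (hO2o.mem_nhds hq)) (fun q hq => hsymO2 _ hq)
      (Complex.conjCLE : ℂ →L[ℝ] ℂ) (fun q hq => by simpa using hsc _ hq) (q := (z, 0)) hz
  set h : ℂ → ℂ := fun z => dz f (z, 0) - 1 / 2 * dy e (z, 0) with hh
  have hhd : DifferentiableOn ℂ h O1 := (hcont hf.dz).sub ((hcont he.dy).const_mul _)
  have hhc : ∀ z ∈ O1, h (conj z) = conj (h z) := fun z hz => by
    simp only [hh]
    rw [hf.dz.symm (z, 0) hz, he.dy.symm (z, 0) hz]
    simp [map_ofNat]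
  set α : ℂ → ℂ := fun z => f (z, 0) / s z with hα
  -- values at the centre
  set s0 := Real.exp (Real.log e0 / 2) with hs0
  have hs0v : s 0 = s0 := by
    simp only [hs]
    rw [show ((0 : ℂ), (0 : ℝ)) = (0 : ℂ × ℝ) from rfl, hee, cs_ofReal hpos.le]
  have hs0p : 0 < s0 := Real.exp_pos _
  have hs0sq : s0 * s0 = e0 := by
    rw [hs0, ← Real.exp_add, add_halves, Real.exp_log hpos]
  have hreal : ∀ {φ : ℂ → ℂ}, φ (conj 0) = conj (φ 0) → φ 0 = ((φ 0).re : ℂ) := by
    intro φ hφ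
    rw [map_zero] at hφ
    exact (Complex.conj_eq_iff_re.1 hφ.symm).symm
  set N : ℂ → ℂ := fun z => h z - α z * deriv s z with hN
  obtain ⟨N0, hN0⟩ : ∃ x : ℝ, N 0 = x := by
    refine ⟨_, hreal ?_⟩
    have h1 : f (conj 0, 0) = conj (f (0, 0)) := hf.symm (0, 0) h0
    simp only [hN, hα, map_sub, map_mul, map_div₀, h1, hsc 0 h02, hsc' 0 h02, hhc 0 h0]
  set m := g0 - (f0 / s0) ^ 2 with hm
  have hmp : 0 < m := by
    rw [hm, div_pow, sub_pos, div_lt_iff₀ (by positivity)]
    rw [sq s0, hs0sq]; linarith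
  set k : ℝ := (|N0| + 1) / (s0 * Real.sqrt m) with hk
  have hkp : 0 < k := by positivity
  set β : ℂ → ℂ := fun z => N z / (s z * k) with hβ
  have hkey : (N0 / (s0 * k)) ^ 2 < m := by
    have h1 : s0 * k = (|N0| + 1) / Real.sqrt m := by rw [hk]; field_simp
    rw [h1, div_div_eq_mul_div, div_pow, mul_pow, Real.sq_sqrt hmp.le,
      div_lt_iff₀ (by positivity)]
    have : N0 ^ 2 < (|N0| + 1) ^ 2 := by
      rw [← sq_abs N0]; nlinarith [abs_nonneg N0]
    nlinarith
  set r : ℂ → ℂ := fun z => g (z, 0) - (α z * α z + β z * β z) with hr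
  have hαd : DifferentiableOn ℂ α O2 :=
    ((hcont hf).mono inter_subset_left).fun_div hsd fun z _ => cs_ne_zero _
  have hkne : (k : ℂ) ≠ 0 := ofReal_ne_zero.2 hkp.ne'
  have hβd : DifferentiableOn ℂ β O2 :=
    ((hhd.mono inter_subset_left).sub (hαd.mul hsd')).fun_div (hsd.mul_const _)
      fun z _ => mul_ne_zero (cs_ne_zero _) hkne
  have hrd : DifferentiableOn ℂ r O2 :=
    ((hcont hg).mono inter_subset_left).sub ((hαd.mul hαd).add (hβd.mul hβd))
  set O3 : Set ℂ := O2 ∩ r ⁻¹' slitPlane with hO3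
  have hO3o : IsOpen O3 := hrd.continuousOn.isOpen_inter_preimage hO2o isOpen_slitPlane
  have h03 : (0 : ℂ) ∈ O3 := by
    refine ⟨h02, ?_⟩
    show r 0 ∈ slitPlane
    have : r 0 = ((g0 - ((f0 / s0) * (f0 / s0) + (N0 / (s0 * k)) * (N0 / (s0 * k))) : ℝ) : ℂ) := by
      simp only [hr, hα, hβ, hN0, hs0v]
      rw [show ((0 : ℂ), (0 : ℝ)) = (0 : ℂ × ℝ) from rfl, hgg, hff]
      push_cast
      ring
    rw [this]
    refine ofReal_mem_slitPlane.2 ?_
    have : g0 - (f0 / s0) ^ 2 = m := hm.symm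
    nlinarith [hkey]
  obtain ⟨ρ, hρ, hball⟩ := Metric.isOpen_iff.1 hO3o 0 h03
  set γ : ℂ → ℂ := fun z => cs (r z) with hγ
  set co : ℂ → ℂ := fun z => Complex.cos (k * z) with hco
  set si : ℂ → ℂ := fun z => Complex.sin (k * z) with hsi
  set A : ℂ → V3 := fun z => ![s z * co z, s z * si z, 0] with hAdef
  set P : ℂ → V3 := fun z => ![α z * co z - β z * si z, α z * si z + β z * co z, γ z] with hPdef
  have hcod : ∀ z, HasDerivAt co (-si z * k) z := fun z => by
    simpa [hco, hsi] using ((hasDerivAt_id z).const_mul (k : ℂ)).ccos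
  have hsid : ∀ z, HasDerivAt si (co z * k) z := fun z => by
    simpa [hco, hsi] using ((hasDerivAt_id z).const_mul (k : ℂ)).csin
  have hA' : ∀ z ∈ O2, HasDerivAt A
      ![deriv s z * co z + s z * (-si z * k), deriv s z * si z + s z * (co z * k), 0] z := by
    intro z hz
    have h1 := (hsd.differentiableAt (hO2o.mem_nhds hz)).hasDerivAt
    rw [hasDerivAt_pi]
    intro i
    fin_cases i <;> simp [hAdef]
    · simpa using h1.fun_mul (hcod z)
    · simpa using h1.fun_mul (hsid z)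
    · exact hasDerivAt_const _ _
  have hPd : DifferentiableOn ℂ P O3 := by
    intro z hz
    refine DifferentiableAt.differentiableWithinAt ?_
    have h1 := hαd.differentiableAt (hO2o.mem_nhds hz.1)
    have h2 := hβd.differentiableAt (hO2o.mem_nhds hz.1)
    have h3 : DifferentiableAt ℂ γ z :=
      (differentiableAt_cs hz.2).comp z (hrd.differentiableAt (hO2o.mem_nhds hz.1))
    rw [differentiableAt_pi]
    intro i
    fin_cases i <;> simp [hPdef]
    · exact (h1.fun_mul (hcod z).differentiableAt).fun_sub (h2.fun_mul (hsid z).differentiableAt)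
    · exact (h1.fun_mul (hsid z).differentiableAt).fun_add (h2.fun_mul (hcod z).differentiableAt)
    · exact h3
  have hpy : ∀ z, co z * co z + si z * si z = 1 := fun z => by
    have := Complex.cos_sq_add_sin_sq ((k : ℂ) * z)
    simp only [hco, hsi]; rw [← sq, ← sq]; exact this
  have hAP : ∀ z, dt (A z) (P z) = f (z, 0) := fun z => by
    have : dt (A z) (P z) = s z * α z * (co z * co z + si z * si z) := by
      simp [hAdef, hPdef, dt]; ring
    rw [this, hpy, mul_one, hα]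
    exact mul_div_cancel₀ _ (cs_ne_zero _)
  refine ⟨ρ, A, P, hρ, fun z hz => (hA' z (hball hz).1).differentiableAt.differentiableWithinAt,
    hPd.mono hball, fun z hz => ?_, ?_⟩
  · obtain ⟨hz2, hz3⟩ := hball hz
    have hco' : co (conj z) = conj (co z) := by
      simp only [hco]; rw [← Complex.cos_conj]; simp
    have hsi' : si (conj z) = conj (si z) := by
      simp only [hsi]; rw [← Complex.sin_conj]; simp
    have hαc : α (conj z) = conj (α z) := by
      simp only [hα, map_div₀, hsc z hz2]; rw [hf.symm (z, 0) hz2.1]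
    have hβc : β (conj z) = conj (β z) := by
      simp only [hβ, hN, map_div₀, map_sub, map_mul, hsc z hz2, hsc' z hz2, hαc, hhc z hz2.1,
        conj_ofReal]
    have hrc : r (conj z) = conj (r z) := by
      simp only [hr, map_sub, map_add, map_mul, hαc, hβc]; rw [hg.symm (z, 0) hz2.1]
    refine ⟨hz2.1, ?_, ?_, ?_, hAP z, ?_, ?_⟩
    · funext i; fin_cases i <;> simp [cjV_apply, hAdef, hsc z hz2, hco', hsi']
    · funext i
      fin_cases i <;> simp [cjV_apply, hPdef, hco', hsi', hαc, hβc, hγ, hrc, cs_conj hz3]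
    · have : dt (A z) (A z) = s z * s z * (co z * co z + si z * si z) := by
        simp [hAdef, dt]; ring
      rw [this, hpy, mul_one]
      exact cs_sq (slitPlane_ne_zero hz2.2)
    · have : dt (P z) (P z) = (α z * α z + β z * β z) * (co z * co z + si z * si z)
          + γ z * γ z := by simp [hPdef, dt]; ring
      rw [this, hpy, mul_one, hγ, cs_sq (slitPlane_ne_zero hz3), hr]
      ring
    · -- differentiate `A · P = f`
      have hPz := hasDerivAt_pi.1 (hPd.differentiableAt (hO3o.mem_nhds ⟨hz2, hz3⟩)).hasDerivAt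
      have hAz := hasDerivAt_pi.1 (hA' z hz2)
      set A1 := ![deriv s z * co z + s z * (-si z * k), deriv s z * si z + s z * (co z * k), 0]
        with hA1
      have hd := (((hAz 0).fun_mul (hPz 0)).fun_add ((hAz 1).fun_mul (hPz 1))).fun_add
        ((hAz 2).fun_mul (hPz 2))
      have hfz : HasDerivAt (fun w => f (w, 0)) (dz f (z, 0)) z := hasDerivAt_dz hf.hol (q := (z, 0)) hz2.1
      have e1 := (hfz.congr_of_eventuallyEq (Eventually.of_forall hAP)).unique hd
      have e2 : dt A1 (P z) = h z := by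
        have : dt A1 (P z) = (α z * deriv s z + β z * (s z * k)) * (co z * co z + si z * si z) := by
          simp [hA1, hPdef, dt]; ring
        rw [this, hpy, mul_one, hβ, div_mul_cancel₀ _ (mul_ne_zero (cs_ne_zero _) hkne), hN]
        ring
      simp only [dt] at e2 ⊢
      simp only [hh] at e2
      linear_combination -e1 - e2
  · rw [(hA' 0 h02).deriv]
    have : tri (A 0, P 0, ![deriv s 0 * co 0 + s 0 * (-si 0 * k),
        deriv s 0 * si 0 + s 0 * (co 0 * k), 0], deriv P 0) = -(γ 0 * s 0 * s 0 * k) := by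
      simp [tri, dt, cr, hAdef, hPdef, hco, hsi]; ring
    rw [this]
    simp [hγ, cs_ne_zero, hkne, hs0v, hs0p.ne']

end P229
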