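import Mathlib
import Vale.Agent.P229.Geom

/-!
Local isometric immersion in three-space of a surface metric which is analytic in one variable and
smooth in the other one.
-/

open Set Metric Filter MeasureTheory Complex
open scoped Topology ContDiff Interval ComplexConjugate InnerProductSpace

namespace P229

section lemmas

variable {𝕜 : Type} [NontriviallyNormedField 𝕜] [NormedAlgebra 𝕜 ℂ]

theorem hasDerivAt_dt {u v : 𝕜 → V3} {u' v' : V3} {x : 𝕜} (hu : HasDerivAt u u' x)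
    (hv : HasDerivAt v v' x) :
    HasDerivAt (fun t => dt (u t) (v t)) (dt u' (v x) + dt (u x) v') x := by
  have hu' := hasDerivAt_pi.1 hu
  have hv' := hasDerivAt_pi.1 hv
  have h := (((hu' 0).fun_mul (hv' 0)).fun_add ((hu' 1).fun_mul (hv' 1))).fun_add
    ((hu' 2).fun_mul (hv' 2))
  exact h.congr_deriv (by simp only [dt]; ring)

theorem hasDerivAt_proj {W : 𝕜 → St} {W' : St} {x : 𝕜} (h : HasDerivAt W W' x) :
    HasDerivAt (fun t => (W t).1) W'.1 x ∧ HasDerivAt (fun t => (W t).2.1) W'.2.1 x ∧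
      HasDerivAt (fun t => (W t).2.2.1) W'.2.2.1 x ∧
      HasDerivAt (fun t => (W t).2.2.2) W'.2.2.2 x := by
  have h1 := (ContinuousLinearMap.fst 𝕜 V3 (V3 × V3 × V3)).hasFDerivAt.comp_hasDerivAt x h
  have h2 := (ContinuousLinearMap.snd 𝕜 V3 (V3 × V3 × V3)).hasFDerivAt.comp_hasDerivAt x h
  have h21 := (ContinuousLinearMap.fst 𝕜 V3 (V3 × V3)).hasFDerivAt.comp_hasDerivAt x h2
  have h22 := (ContinuousLinearMap.snd 𝕜 V3 (V3 × V3)).hasFDerivAt.comp_hasDerivAt x h2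
  exact ⟨h1, h21, (ContinuousLinearMap.fst 𝕜 V3 V3).hasFDerivAt.comp_hasDerivAt x h22,
    (ContinuousLinearMap.snd 𝕜 V3 V3).hasFDerivAt.comp_hasDerivAt x h22⟩

end lemmas

theorem seg_mem_ball {ρ : ℝ} {q : ℂ × ℝ} (hq : q ∈ ball (0 : ℂ × ℝ) ρ) {t : ℝ}
    (ht : t ∈ uIcc 0 q.2) : (q.1, t) ∈ ball (0 : ℂ × ℝ) ρ := by
  rw [mem_ball_zero_iff] at hq ⊢
  refine lt_of_le_of_lt ?_ hq
  simp only [Prod.norm_def, Real.norm_eq_abs]
  exact max_le_max le_rfl (abs_le_of_mem_uIcc ht)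

theorem eq_zero_of_hasDerivAt {F : Type} [NormedAddCommGroup F] [NormedSpace ℝ F] {ρ : ℝ}
    {u : ℂ × ℝ → F} (hu : ∀ q ∈ ball (0 : ℂ × ℝ) ρ, HasDerivAt (fun t => u (q.1, t)) 0 q.2)
    (h0 : ∀ q ∈ ball (0 : ℂ × ℝ) ρ, u (q.1, 0) = 0) : ∀ q ∈ ball (0 : ℂ × ℝ) ρ, u q = 0 := by
  intro q hq
  have := (convex_uIcc (0 : ℝ) q.2).norm_image_sub_le_of_norm_hasDerivWithin_le
    (f := fun t => u (q.1, t)) (f' := fun _ => 0) (C := 0)
    (fun t ht => (hu (q.1, t) (seg_mem_ball hq ht)).hasDerivWithinAt)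
    (fun _ _ => by simp) left_mem_uIcc right_mem_uIcc
  simpa [h0 q hq] using this

/-- Real parts, as a vector of Euclidean space. -/
noncomputable def toR3 : V3 →L[ℝ] EuclideanSpace ℝ (Fin 3) :=
  (EuclideanSpace.equiv (Fin 3) ℝ).symm.toContinuousLinearMap.comp
    (ContinuousLinearMap.pi fun i => Complex.reCLM.comp (ContinuousLinearMap.proj i))

theorem inner_toR3 {u v : V3} (hu : cjV u = u) (hv : cjV v = v) :
    ⟪toR3 u, toR3 v⟫_ℝ = (dt u v).re := by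
  have hu' : ∀ i, (u i).im = 0 := fun i =>
    Complex.conj_eq_iff_im.1 (by simpa [cjV_apply] using congrFun hu i)
  have hv' : ∀ i, (v i).im = 0 := fun i =>
    Complex.conj_eq_iff_im.1 (by simpa [cjV_apply] using congrFun hv i)
  simp [toR3, PiLp.inner_apply, Fin.sum_univ_three, dt, hu', hv', mul_comm]

/-- A closed pair of vector fields on a convex open set of the plane has a smooth potential. -/
theorem exists_potential {Y : Type} [NormedAddCommGroup Y] [NormedSpace ℝ Y] [CompleteSpace Y]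
    {R : Set (ℝ × ℝ)} (hR : IsOpen R) (hRc : Convex ℝ R) {a c : ℝ × ℝ → Y}
    (ha : ContDiffOn ℝ ∞ a R) (hc : ContDiffOn ℝ ∞ c R)
    (h : ∀ q ∈ R, fderiv ℝ a q (0, 1) = fderiv ℝ c q (1, 0)) :
    ∃ F : ℝ × ℝ → Y, ContDiffOn ℝ ∞ F R ∧
      ∀ q ∈ R, ∀ v : ℝ × ℝ, fderiv ℝ F q v = v.1 • a q + v.2 • c q := by
  set om : ℝ × ℝ → (ℝ × ℝ →L[ℝ] Y) := fun q =>
    (ContinuousLinearMap.smulRightL ℝ (ℝ × ℝ) Y (ContinuousLinearMap.fst ℝ ℝ ℝ)) (a q)
      + (ContinuousLinearMap.smulRightL ℝ (ℝ × ℝ) Y (ContinuousLinearMap.snd ℝ ℝ ℝ)) (c q)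
    with hom
  have homs : ContDiffOn ℝ ∞ om R :=
    ((ContinuousLinearMap.contDiff _).comp_contDiffOn ha).add
      ((ContinuousLinearMap.contDiff _).comp_contDiffOn hc)
  obtain ⟨F, hF⟩ := hRc.exists_forall_hasFDerivAt_of_fderiv_symmetric hR
    (homs.differentiableOn (by simp)) (fun q hq u v => by
      have hda := ((ha.contDiffAt (hR.mem_nhds hq)).differentiableAt (by simp)).hasFDerivAt
      have hdc := ((hc.contDiffAt (hR.mem_nhds hq)).differentiableAt (by simp)).hasFDerivAt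
      have hd : HasFDerivAt om _ q :=
        (((ContinuousLinearMap.smulRightL ℝ (ℝ × ℝ) Y
          (ContinuousLinearMap.fst ℝ ℝ ℝ)).hasFDerivAt.comp q hda).add
        ((ContinuousLinearMap.smulRightL ℝ (ℝ × ℝ) Y
          (ContinuousLinearMap.snd ℝ ℝ ℝ)).hasFDerivAt.comp q hdc))
      rw [hd.fderiv]
      have key : ∀ (T : ℝ × ℝ →L[ℝ] Y) (w : ℝ × ℝ), T w = w.1 • T (1, 0) + w.2 • T (0, 1) := by
        intro T w
        rw [← map_smul, ← map_smul, ← map_add]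
        simp
      show v.1 • fderiv ℝ a q u + v.2 • fderiv ℝ c q u
        = u.1 • fderiv ℝ a q v + u.2 • fderiv ℝ c q v
      rw [key (fderiv ℝ a q) u, key (fderiv ℝ a q) v, key (fderiv ℝ c q) u, key (fderiv ℝ c q) v,
        h q hq]
      module)
  refine ⟨F, ?_, fun q hq v => ?_⟩
  · rw [contDiffOn_infty_iff_fderiv_of_isOpen hR]
    exact ⟨fun q hq => (hF q hq).differentiableAt.differentiableWithinAt,
      homs.congr fun q hq => (hF q hq).fderiv⟩
  · rw [(hF q hq).fderiv]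
    simp [hom]

theorem mem_ball_iff_real {ρ : ℝ} {q : ℝ × ℝ} :
    ((q.1 : ℂ), q.2) ∈ ball (0 : ℂ × ℝ) ρ ↔ q ∈ ball (0 : ℝ × ℝ) ρ := by
  simp [Prod.norm_def, Complex.norm_real]

variable {O : Set (ℂ × ℝ)} {e f g : ℂ × ℝ → ℂ}

/-- The result at the origin, for real-symmetric data. -/
theorem realize (he : Ext O e) (hf : Ext O f) (hg : Ext O g) (h0 : (0 : ℂ × ℝ) ∈ O)
    {e0 f0 g0 : ℝ} (hee : e 0 = e0) (hff : f 0 = f0) (hgg : g 0 = g0) (hpos : 0 < e0)
    (hdet : f0 ^ 2 < e0 * g0) :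
    ∃ (ρ : ℝ) (F : ℝ × ℝ → EuclideanSpace ℝ (Fin 3)), 0 < ρ ∧
      ContDiffOn ℝ ∞ F (ball 0 ρ) ∧
      ∀ q ∈ ball (0 : ℝ × ℝ) ρ, ((q.1 : ℂ), q.2) ∈ O ∧ ∀ v w : ℝ × ℝ,
        ⟪fderiv ℝ F q v, fderiv ℝ F q w⟫_ℝ =
          (e ((q.1 : ℂ), q.2)).re * (v.1 * w.1) +
          (f ((q.1 : ℂ), q.2)).re * (v.1 * w.2 + v.2 * w.1) +
          (g ((q.1 : ℂ), q.2)).re * (v.2 * w.2) := by
  obtain ⟨ρ0, A, P, hρ0, hAd, hPd, hid, htri⟩ :=
    exists_initial he hf hg h0 hee hff hgg hpos hdet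
  have hO := he.isOpen
  have hball : IsOpen (ball (0 : ℂ) ρ0) := isOpen_ball
  set W0 : ℂ → St := fun z => (A z, P z, deriv A z, deriv P z) with hW0
  have hW0d : DifferentiableOn ℂ W0 (ball 0 ρ0) :=
    hAd.prodMk (hPd.prodMk ((hAd.deriv hball).prodMk (hPd.deriv hball)))
  have hW0s : ContDiffOn ℝ ∞ W0 (ball 0 ρ0) := (hW0d.contDiffOn hball).restrict_scalars ℝ
  have hW0c : ∀ z ∈ ball (0 : ℂ) ρ0, W0 (conj z) = cjS (W0 z) := by
    intro z hz
    have hsym : ∀ (B : ℂ → V3), DifferentiableOn ℂ B (ball 0 ρ0) →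
        (∀ z ∈ ball (0 : ℂ) ρ0, B (conj z) = cjV (B z)) →
        deriv B (conj z) = cjV (deriv B z) := by
      intro B hB hBc
      exact dz_conj (f := fun q : ℂ × ℝ => B q.1) (O := {q | q.1 ∈ ball (0 : ℂ) ρ0})
        (hball.preimage continuous_fst) (fun q hq => hB.differentiableAt (hball.mem_nhds hq))
        (fun q hq => by simpa using hq) cjV (fun q hq => hBc q.1 hq) (q := (z, 0)) hz
    obtain ⟨-, h1, h2, -⟩ := hid z hz
    simp only [hW0, cjS_apply]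
    rw [h1, h2, hsym A hAd fun w hw => (hid w hw).2.1,
      hsym P hPd fun w hw => (hid w hw).2.2.1]
  have ha : Ext O (aC f g) := hf.dy.sub_half hg.dz
  have hb : Ext O (bC g) := hg.dy.half
  have hc : Ext O (cC e f g) := ha.dz.sub_half he.dy.dy
  -- the data of the abstract problem
  set G3 : ℂ × ℝ × St → V3 := fun q =>
    cramer (aC f g (q.1, q.2.1)) (bC g (q.1, q.2.1)) (cC e f g (q.1, q.2.1)) (W0 q.1 + q.2.2)
    with hG3
  set Φ : ℂ × ℝ × St → St := fun q => ((W0 q.1 + q.2.2).2.2.2, G3 q, 0, 0) with hΦ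
  set Ψ : ℂ × ℝ × St → St := fun q => (0, 0, (W0 q.1 + q.2.2).2.2.2, G3 q) with hΨ
  set S1 : Set (ℂ × ℝ × St) :=
    (fun q => q.1) ⁻¹' ball 0 ρ0 ∩ (fun q => (q.1, q.2.1)) ⁻¹' O with hS1
  set U : Set (ℂ × ℝ × St) := S1 ∩ (fun q => tri (W0 q.1 + q.2.2)) ⁻¹' {0}ᶜ with hU
  have hS1o : IsOpen S1 :=
    (hball.preimage continuous_fst).inter (hO.preimage (by fun_prop))
  have hWs : ContDiffOn ℝ ∞ (fun q : ℂ × ℝ × St => W0 q.1 + q.2.2) S1 :=
    (hW0s.comp contDiff_fst.contDiffOn inter_subset_left).add contDiff_snd.snd.contDiffOn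
  have hUo : IsOpen U :=
    (contDiffOn_tri hWs).continuousOn.isOpen_inter_preimage hS1o isOpen_compl_singleton
  have hU0 : (0 : ℂ × ℝ × St) ∈ U := by
    refine ⟨⟨mem_ball_self hρ0, h0⟩, ?_⟩
    simpa [hW0] using htri
  have hproj : ∀ {φ : ℂ × ℝ → ℂ}, Ext O φ →
      ContDiffOn ℝ ∞ (fun q : ℂ × ℝ × St => φ (q.1, q.2.1)) U := fun hφ =>
    hφ.smooth.comp (contDiff_fst.prodMk contDiff_snd.fst).contDiffOn fun q hq => hq.1.2
  have hWsU := hWs.mono (inter_subset_left : U ⊆ S1)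
  have hG3s : ContDiffOn ℝ ∞ G3 U :=
    contDiffOn_cramer (hproj ha) (hproj hb) (hproj hc) hWsU fun q hq => hq.2
  have hΦs : ContDiffOn ℝ ∞ Φ U :=
    hWsU.snd.snd.snd.prodMk (hG3s.prodMk contDiffOn_const)
  have hΨs : ContDiffOn ℝ ∞ Ψ U :=
    contDiffOn_const.prodMk (contDiffOn_const.prodMk (hWsU.snd.snd.snd.prodMk hG3s))
  have hG3h : ∀ q ∈ U, DifferentiableAt ℂ
      (fun x : ℂ × St => W0 x.1 + x.2) (q.1, q.2.2) ∧ DifferentiableAt ℂ
      (fun x : ℂ × St => G3 (x.1, q.2.1, x.2)) (q.1, q.2.2) := by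
    intro q hq
    have hW0x : DifferentiableAt ℂ W0 q.1 := hW0d.differentiableAt (hball.mem_nhds hq.1.1)
    have hWd : DifferentiableAt ℂ (fun x : ℂ × St => W0 x.1 + x.2) (q.1, q.2.2) :=
      DifferentiableAt.fun_add
        (DifferentiableAt.comp (g := W0) (f := fun x : ℂ × St => x.1) (q.1, q.2.2) hW0x
          differentiableAt_fst) differentiableAt_snd
    have hcoef : ∀ {φ : ℂ × ℝ → ℂ}, Ext O φ →
        DifferentiableAt ℂ (fun x : ℂ × St => φ (x.1, q.2.1)) (q.1, q.2.2) := fun {φ} hφ =>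
      DifferentiableAt.comp (g := fun w : ℂ => φ (w, q.2.1)) (f := fun x : ℂ × St => x.1)
        (q.1, q.2.2) (hφ.hol (q.1, q.2.1) hq.1.2) differentiableAt_fst
    exact ⟨hWd, differentiableAt_cramer (hcoef ha) (hcoef hb) (hcoef hc) hWd hq.2⟩
  have hΦh : HolData Φ U := fun q hq =>
    (hG3h q hq).1.snd.snd.snd.prodMk ((hG3h q hq).2.prodMk (differentiableAt_const _))
  have hΨh : HolData Ψ U := fun q hq =>
    (differentiableAt_const _).prodMk ((differentiableAt_const _).prodMk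
      ((hG3h q hq).1.snd.snd.snd.prodMk (hG3h q hq).2))
  have hsymq : ∀ q ∈ U, W0 (conj q.1) + cjS q.2.2 = cjS (W0 q.1 + q.2.2) ∧
      G3 (conj q.1, q.2.1, cjS q.2.2) = cjV (G3 q) := by
    intro q hq
    have h1 : W0 (conj q.1) + cjS q.2.2 = cjS (W0 q.1 + q.2.2) := by
      rw [map_add, hW0c q.1 hq.1.1]
    refine ⟨h1, ?_⟩
    simp only [hG3]
    rw [h1, ha.symm (q.1, q.2.1) hq.1.2, hb.symm (q.1, q.2.1) hq.1.2,
      hc.symm (q.1, q.2.1) hq.1.2, cramer_conj]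
  have hΦc : ∀ q ∈ U, Φ (conj q.1, q.2.1, cjS q.2.2) = cjS (Φ q) := by
    intro q hq
    simp only [hΦ, (hsymq q hq).2, (hsymq q hq).1]
    simp [cjS_apply]
  have hΨc : ∀ q ∈ U, Ψ (conj q.1, q.2.1, cjS q.2.2) = cjS (Ψ q) := by
    intro q hq
    simp only [hΨ, (hsymq q hq).2, (hsymq q hq).1]
    simp [cjS_apply]
  obtain ⟨ρ, V, hρ, hVs, hVh, hRh, hV0, hmain⟩ :=
    exists_solution hUo hU0 hΦs hΨs hΦh hΨh cjS hΦc hΨc
  set B : Set (ℂ × ℝ) := ball 0 ρ with hB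
  have hBo : IsOpen B := isOpen_ball
  have hBz : ∀ q ∈ B, (q.1, (0 : ℝ)) ∈ B := fun q hq => seg_mem_ball hq left_mem_uIcc
  set W : ℂ × ℝ → St := fun q => W0 q.1 + V q with hW
  have hmemO : ∀ q ∈ B, q.1 ∈ ball (0 : ℂ) ρ0 ∧ q ∈ O ∧ tri (W q) ≠ 0 := fun q hq =>
    ⟨(hmain q hq).1.1.1, (hmain q hq).1.1.2, (hmain q hq).1.2⟩
  have hWh : HolSlices W B := fun q hq =>
    (hW0d.differentiableAt (hball.mem_nhds (hmemO q hq).1)).add (hVh q hq)
  have hWsB : ContDiffOn ℝ ∞ W B :=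
    (hW0s.comp contDiff_fst.contDiffOn fun q hq => (hmemO q hq).1).add hVs
  set Af : ℂ × ℝ → V3 := fun q => (W q).1 with hAf
  set Pf : ℂ × ℝ → V3 := fun q => (W q).2.1 with hPf
  set Cf : ℂ × ℝ → V3 := fun q => (W q).2.2.1 with hCf
  set Df : ℂ × ℝ → V3 := fun q => (W q).2.2.2 with hDf
  set Gf : ℂ × ℝ → V3 := fun q => cramer (aC f g q) (bC g q) (cC e f g q) (W q) with hGf
  have hAh : HolSlices Af B := fun q hq => (hWh q hq).fst
  have hPh : HolSlices Pf B := fun q hq => (hWh q hq).snd.fst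
  have hDh : HolSlices Df B := fun q hq => (hWh q hq).snd.snd.snd
  have hGh : HolSlices Gf B := fun q hq =>
    differentiableAt_cramer (ha.hol q (hmemO q hq).2.1) (hb.hol q (hmemO q hq).2.1)
      (hc.hol q (hmemO q hq).2.1) (hWh q hq) (hmemO q hq).2.2
  have hrhs : ∀ q ∈ B, rhs Φ Ψ V q = (Df q, Gf q, dz Df q, dz Gf q) := by
    intro q hq
    have h : dz (sub3 Ψ V) q = ((0 : V3), (0 : V3), dz Df q, dz Gf q) :=
      ((hasDerivAt_const q.1 (0 : V3)).prodMk ((hasDerivAt_const q.1 (0 : V3)).prodMk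
        ((hasDerivAt_dz hDh hq).prodMk (hasDerivAt_dz hGh hq)))).deriv
    rw [rhs, h]
    show ((Df q, Gf q, (0 : V3), (0 : V3)) : St) + (0, 0, dz Df q, dz Gf q) = _
    simp
  -- evolution of the components
  have hyW : ∀ q ∈ B, HasDerivAt (fun t => Af (q.1, t)) (Df q) q.2 ∧
      HasDerivAt (fun t => Pf (q.1, t)) (Gf q) q.2 ∧
      HasDerivAt (fun t => Cf (q.1, t)) (dz Df q) q.2 ∧
      HasDerivAt (fun t => Df (q.1, t)) (dz Gf q) q.2 := by
    intro q hq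
    have h := hasDerivAt_proj ((hmain q hq).2.2.1.const_add (W0 q.1))
    simp only [hrhs q hq] at h
    exact h
  have hzW : ∀ q ∈ B, dz Af q = deriv A q.1 + (dz V q).1 ∧
      dz Pf q = deriv P q.1 + (dz V q).2.1 := by
    intro q hq
    obtain ⟨h1, h2, -, -⟩ := hasDerivAt_proj (hasDerivAt_dz hVh hq)
    exact ⟨((hAd.differentiableAt (hball.mem_nhds (hmemO q hq).1)).hasDerivAt.add h1).deriv,
      ((hPd.differentiableAt (hball.mem_nhds (hmemO q hq).1)).hasDerivAt.add h2).deriv⟩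
  have hdzrhs : ∀ q ∈ B, (dz (rhs Φ Ψ V) q).1 = dz Df q ∧
      (dz (rhs Φ Ψ V) q).2.1 = dz Gf q := by
    intro q hq
    obtain ⟨h1, h2, -, -⟩ := hasDerivAt_proj (hasDerivAt_dz hRh hq)
    have hev : ∀ᶠ w in 𝓝 q.1, (w, q.2) ∈ B :=
      (hBo.preimage (by fun_prop : Continuous fun w : ℂ => (w, q.2))).mem_nhds hq
    constructor
    · refine h1.unique ((hasDerivAt_dz hDh hq).congr_of_eventuallyEq ?_)
      filter_upwards [hev] with w hw
      simp [hrhs _ hw]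
    · refine h2.unique ((hasDerivAt_dz hGh hq).congr_of_eventuallyEq ?_)
      filter_upwards [hev] with w hw
      simp [hrhs _ hw]
  have hev : ∀ q ∈ B, ∀ᶠ t in 𝓝 q.2, (q.1, t) ∈ B := fun q hq =>
    (hBo.preimage (by fun_prop : Continuous fun t : ℝ => (q.1, t))).mem_nhds hq
  have hyz : ∀ q ∈ B, HasDerivAt (fun t => dz Af (q.1, t)) (dz Df q) q.2 ∧
      HasDerivAt (fun t => dz Pf (q.1, t)) (dz Gf q) q.2 := by
    intro q hq
    obtain ⟨h1, h2, -, -⟩ := hasDerivAt_proj (hmain q hq).2.2.2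
    rw [(hdzrhs q hq).1] at h1
    rw [(hdzrhs q hq).2] at h2
    constructor
    · refine (h1.const_add (deriv A q.1)).congr_of_eventuallyEq ?_
      filter_upwards [hev q hq] with t ht using (hzW _ ht).1
    · refine (h2.const_add (deriv P q.1)).congr_of_eventuallyEq ?_
      filter_upwards [hev q hq] with t ht using (hzW _ ht).2
  -- values on the initial line
  have hWz : ∀ z, W (z, 0) = (A z, P z, deriv A z, deriv P z) := fun z => by
    simp [hW, hW0, hV0]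
  have hVz : ∀ z, dz V (z, 0) = 0 := fun z => by simp [dz, hV0]
  -- compatibility
  have hC : ∀ q ∈ B, Cf q = dz Af q := fun q hq => sub_eq_zero.1 <|
    eq_zero_of_hasDerivAt (u := fun p => Cf p - dz Af p)
      (fun p hp => by simpa using (hyW p hp).2.2.1.fun_sub (hyz p hp).1)
      (fun p hp => by
        have := (hzW _ (hBz p hp)).1
        simp only [hVz] at this
        simp [this, hCf, hWz]) q hq
  have hD : ∀ q ∈ B, Df q = dz Pf q := fun q hq => sub_eq_zero.1 <|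
    eq_zero_of_hasDerivAt (u := fun p => Df p - dz Pf p)
      (fun p hp => by simpa using (hyW p hp).2.2.2.fun_sub (hyz p hp).2)
      (fun p hp => by
        have := (hzW _ (hBz p hp)).2
        simp only [hVz] at this
        simp [this, hDf, hWz]) q hq
  have hzA : ∀ q ∈ B, HasDerivAt (fun w => Af (w, q.2)) (Cf q) q.1 := fun q hq =>
    (hC q hq) ▸ hasDerivAt_dz hAh hq
  have hzP : ∀ q ∈ B, HasDerivAt (fun w => Pf (w, q.2)) (Df q) q.1 := fun q hq =>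
    (hD q hq) ▸ hasDerivAt_dz hPh hq
  have hzero : ∀ (u : ℂ × ℝ → ℂ), (∀ q ∈ B, u q = 0) → ∀ q ∈ B,
      HasDerivAt (fun w => u (w, q.2)) 0 q.1 := fun u hu q hq =>
    (hasDerivAt_const q.1 (0 : ℂ)).congr_of_eventuallyEq <| by
      filter_upwards [(hBo.preimage (by fun_prop : Continuous fun w : ℂ => (w, q.2))).mem_nhds hq]
        with w hw using hu _ hw
  have hyE : ∀ {φ : ℂ × ℝ → ℂ}, Ext O φ → ∀ q ∈ B,
      HasDerivAt (fun t => φ (q.1, t)) (P229.dy φ q) q.2 := fun hφ q hq =>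
    hasDerivAt_dy ((hφ.smooth.contDiffAt (hO.mem_nhds (hmemO q hq).2.1)).differentiableAt
      (by simp))
  have hGA : ∀ q ∈ B, dt (Gf q) (Af q) = aC f g q ∧ dt (Gf q) (Pf q) = bC g q ∧
      dt (Gf q) (Cf q) = dt (Df q) (Df q) + cC e f g q := fun q hq =>
    ⟨cramer_A (hmemO q hq).2.2, cramer_P (hmemO q hq).2.2, cramer_C (hmemO q hq).2.2⟩
  have hinit : ∀ q ∈ B, dt (A q.1) (A q.1) = e (q.1, 0) ∧ dt (A q.1) (P q.1) = f (q.1, 0) ∧
      dt (P q.1) (P q.1) = g (q.1, 0) ∧ dt (A q.1) (deriv P q.1) = 1 / 2 * dy e (q.1, 0) :=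
    fun q hq => (hid q.1 (hmemO q hq).1).2.2.2
  -- the three identities
  have e22 : ∀ q ∈ B, dt (Pf q) (Pf q) - g q = 0 :=
    eq_zero_of_hasDerivAt (fun q hq => by
      refine ((hasDerivAt_dt (hyW q hq).2.1 (hyW q hq).2.1).fun_sub (hyE hg q hq)).congr_deriv ?_
      show dt (Gf q) (Pf q) + dt (Pf q) (Gf q) - dy g q = 0
      rw [dt_comm (Pf q), (hGA q hq).2.1, bC]; ring)
      (fun q hq => by simp [hPf, hWz, (hinit q hq).2.2.1])
  have e12 : ∀ q ∈ B, dt (Af q) (Pf q) - f q = 0 :=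
    eq_zero_of_hasDerivAt (fun q hq => by
      refine ((hasDerivAt_dt (hyW q hq).1 (hyW q hq).2.1).fun_sub (hyE hf q hq)).congr_deriv ?_
      show dt (Df q) (Pf q) + dt (Af q) (Gf q) - dy f q = 0
      have h := ((hasDerivAt_dt (hzP q hq) (hzP q hq)).fun_sub
        (hasDerivAt_dz hg.hol (hmemO q hq).2.1)).unique
          (hzero _ e22 q hq)
      rw [dt_comm (Af q), (hGA q hq).1, aC]
      rw [dt_comm (Pf (q.1, q.2)) (Df q)] at h
      change dt (Df q) (Pf q) + dt (Df q) (Pf q) - dz g q = 0 at h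
      linear_combination (1 / 2 : ℂ) * h)
      (fun q hq => by simp [hAf, hPf, hWz, (hinit q hq).2.1])
  have eq11 : ∀ q ∈ B, dt (Af q) (Df q) - 1 / 2 * dy e q = 0 :=
    eq_zero_of_hasDerivAt (fun q hq => by
      refine ((hasDerivAt_dt (hyW q hq).1 (hyW q hq).2.2.2).fun_sub
        ((hyE he.dy q hq).const_mul (1 / 2 : ℂ))).congr_deriv ?_
      show dt (Df q) (Df q) + dt (Af q) (dz Gf q) - 1 / 2 * dy (dy e) q = 0
      have h := ((hasDerivAt_dt (hasDerivAt_dz hGh hq) (hzA q hq)).fun_sub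
        (hasDerivAt_dz ha.hol (hmemO q hq).2.1)).unique
          (hzero (fun p => dt (Gf p) (Af p) - aC f g p)
            (fun p hp => sub_eq_zero.2 (hGA p hp).1) q hq)
      change dt (dz Gf q) (Af q) + dt (Gf q) (Cf q) - dz (aC f g) q = 0 at h
      rw [(hGA q hq).2.2, cC] at h
      rw [dt_comm (Af q)]
      linear_combination h)
      (fun q hq => by simp [hAf, hDf, hWz, (hinit q hq).2.2.2])
  have e11 : ∀ q ∈ B, dt (Af q) (Af q) - e q = 0 :=
    eq_zero_of_hasDerivAt (fun q hq => by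
      refine ((hasDerivAt_dt (hyW q hq).1 (hyW q hq).1).fun_sub (hyE he q hq)).congr_deriv ?_
      show dt (Df q) (Af q) + dt (Af q) (Df q) - dy e q = 0
      rw [dt_comm (Df q)]
      linear_combination (2 : ℂ) * eq11 q hq)
      (fun q hq => by simp [hAf, hWz, (hinit q hq).1])
  -- real restriction
  set ι : ℝ × ℝ →L[ℝ] ℂ × ℝ := Complex.ofRealCLM.prodMap (ContinuousLinearMap.id ℝ ℝ) with hι
  have hιa : ∀ q : ℝ × ℝ, ι q = ((q.1 : ℂ), q.2) := fun q => by simp [hι, Prod.map]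
  set R : Set (ℝ × ℝ) := ball 0 ρ with hR
  have hιB : ∀ q ∈ R, ι q ∈ B := fun q hq => by rw [hιa]; exact mem_ball_iff_real.2 hq
  have hreal : ∀ q ∈ R, cjV (Af (ι q)) = Af (ι q) ∧ cjV (Pf (ι q)) = Pf (ι q) := by
    intro q hq
    have hb' := hιB q hq
    have h1 : V (conj (ι q).1, (ι q).2) = cjS (V (ι q)) := (hmain _ hb').2.1
    have h2 : W0 (conj (ι q).1) = cjS (W0 (ι q).1) := hW0c _ (hmemO _ hb').1
    have hc1 : conj (ι q).1 = (ι q).1 := by rw [hιa]; exact Complex.conj_ofReal _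
    rw [hc1] at h1 h2
    have h3 : cjS (W (ι q)) = W (ι q) := by
      simp only [hW, map_add]; rw [← h2, ← h1]
    exact ⟨congrArg Prod.fst h3, congrArg (fun S : St => S.2.1) h3⟩
  have hsm : ∀ u : ℂ × ℝ → V3, ContDiffOn ℝ ∞ u B →
      ContDiffOn ℝ ∞ (fun q => toR3 (u (ι q))) R ∧ ∀ q ∈ R, ∀ v,
        fderiv ℝ (fun q => toR3 (u (ι q))) q v = toR3 (fderiv ℝ u (ι q) (ι v)) := by
    intro u hu
    refine ⟨toR3.contDiff.comp_contDiffOn (hu.comp ι.contDiff.contDiffOn hιB), fun q hq v => ?_⟩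
    have hd := (hu.contDiffAt (hBo.mem_nhds (hιB q hq))).differentiableAt (by simp)
    have h : HasFDerivAt (fun q => toR3 (u (ι q))) _ q :=
      toR3.hasFDerivAt.comp q (hd.hasFDerivAt.comp q ι.hasFDerivAt)
    rw [h.fderiv]
    rfl
  obtain ⟨hsA, hdA⟩ := hsm Af hWsB.fst
  obtain ⟨hsP, hdP⟩ := hsm Pf hWsB.snd.fst
  obtain ⟨F, hFs, hF⟩ := exists_potential (R := R) isOpen_ball (convex_ball 0 ρ) hsA hsP
    (fun q hq => by
      rw [hdA q hq, hdP q hq]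
      congr 1
      have hb' := hιB q hq
      have hdAf : DifferentiableAt ℝ Af (ι q) :=
        (hWsB.fst.contDiffAt (hBo.mem_nhds hb')).differentiableAt (by simp)
      have hdPf : DifferentiableAt ℝ Pf (ι q) :=
        (hWsB.snd.fst.contDiffAt (hBo.mem_nhds hb')).differentiableAt (by simp)
      have e1 : ι ((0 : ℝ), (1 : ℝ)) = ((0 : ℂ), (1 : ℝ)) := by simp [hιa]
      have e2 : ι ((1 : ℝ), (0 : ℝ)) = ((1 : ℂ), (0 : ℝ)) := by simp [hιa]
      rw [e1, e2, fderiv_eq_dz hPh hb' hdPf, one_smul, ← hD _ hb']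
      exact (hasDerivAt_dy hdAf).unique (hyW _ hb').1)
  refine ⟨ρ, F, hρ, hFs, fun q hq => ?_⟩
  have hb' := hιB q hq
  refine ⟨by simpa [hιa] using (hmemO _ hb').2.1, fun v w => ?_⟩
  obtain ⟨hA1, hP1⟩ := hreal q hq
  rw [hF q hq v, hF q hq w, ← hιa q]
  simp only [inner_add_left, inner_add_right, real_inner_smul_left, real_inner_smul_right,
    inner_toR3 hA1 hA1, inner_toR3 hA1 hP1, inner_toR3 hP1 hA1, inner_toR3 hP1 hP1,
    dt_comm (Pf (ι q)) (Af (ι q)), sub_eq_zero.1 (e11 _ hb'), sub_eq_zero.1 (e12 _ hb'),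
    sub_eq_zero.1 (e22 _ hb')]
  ring

end P229
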