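import Mathlib
import Vale.Agent.P229.Realize

/-!
Translation to the origin and symmetrisation of the complexified coefficients.
-/

open Set Metric Filter Complex
open scoped Topology ContDiff ComplexConjugate

namespace P229

/-- The translated domain, made invariant under conjugation. -/
def domSym (O : Set (ℂ × ℝ)) (c : ℝ × ℝ) : Set (ℂ × ℝ) :=
  {q | (q.1 + c.1, q.2 + c.2) ∈ O ∧ (conj q.1 + c.1, q.2 + c.2) ∈ O}

/-- The translated coefficient, made real on the real axis. -/
noncomputable def funSym (g : ℂ × ℝ → ℂ) (c : ℝ × ℝ) (q : ℂ × ℝ) : ℂ :=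
  1 / 2 * (g (q.1 + c.1, q.2 + c.2) + conj (g (conj q.1 + c.1, q.2 + c.2)))

theorem ext_funSym {O : Set (ℂ × ℝ)} {g : ℂ × ℝ → ℂ} (hO : IsOpen O)
    (hs : ContDiffOn ℝ ∞ g O)
    (hh : ∀ q ∈ O, DifferentiableAt ℂ (fun z => g (z, q.2)) q.1) (c : ℝ × ℝ) :
    Ext (domSym O c) (funSym g c) := by
  refine ⟨(hO.preimage (by fun_prop)).inter (hO.preimage (by fun_prop)),
    fun q hq => ⟨hq.2, by simpa [domSym] using hq.1⟩, ?_, fun q hq => ?_, fun q hq => ?_⟩
  · have h1 : ContDiff ℝ ∞ fun q : ℂ × ℝ => (q.1 + (c.1 : ℂ), q.2 + c.2) :=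
      (contDiff_fst.add contDiff_const).prodMk (contDiff_snd.add contDiff_const)
    have h2 : ContDiff ℝ ∞ fun q : ℂ × ℝ => (conj q.1 + (c.1 : ℂ), q.2 + c.2) :=
      ((Complex.conjCLE.contDiff.comp contDiff_fst).add contDiff_const).prodMk
        (contDiff_snd.add contDiff_const)
    exact contDiffOn_const.mul ((hs.comp h1.contDiffOn fun q hq => hq.1).add
      (Complex.conjCLE.contDiff.comp_contDiffOn (hs.comp h2.contDiffOn fun q hq => hq.2)))
  · have h1 : DifferentiableAt ℂ (fun z => g (z + c.1, q.2 + c.2)) q.1 :=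
      DifferentiableAt.comp (g := fun z => g (z, q.2 + c.2)) (f := fun z : ℂ => z + c.1) q.1
        (hh _ hq.1) (differentiableAt_id.add_const _)
    have h2 : DifferentiableAt ℂ (fun z => g (z + c.1, q.2 + c.2)) (conj q.1) :=
      DifferentiableAt.comp (g := fun z => g (z, q.2 + c.2)) (f := fun z : ℂ => z + c.1)
        (conj q.1) (hh _ hq.2) (differentiableAt_id.add_const _)
    have h3 := h2.conj_conj
    rw [Complex.conj_conj] at h3
    exact (differentiableAt_const _).mul (h1.add h3)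
  · simp only [funSym, map_mul, map_add, map_div₀, map_one, map_ofNat, Complex.conj_conj]
    ring

theorem funSym_real {g : ℂ × ℝ → ℂ} {O : Set (ℂ × ℝ)} {G : ℝ × ℝ → ℝ}
    (h : ∀ x y : ℝ, ((x : ℂ), y) ∈ O → g ((x : ℂ), y) = G (x, y)) {c : ℝ × ℝ} {x y : ℝ}
    (hq : ((x : ℂ), y) ∈ domSym O c) :
    funSym g c ((x : ℂ), y) = G (x + c.1, y + c.2) := by
  have hm : (((x + c.1 : ℝ) : ℂ), y + c.2) ∈ O := by simpa using hq.1
  have := h _ _ hm
  push_cast at this
  simp only [funSym, Complex.conj_ofReal, this]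
  ring

end P229
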